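import Crest.Agent.N250.Hn.Est

/-! The class `CF` of families of holomorphic functions on a cover (sectors, cells) with small jumps
and asymptotic expansions of every order; closure properties. -/

set_option autoImplicit false
set_option linter.unusedSectionVars false

open Filter Topology Asymptotics Metric Set

noncomputable section

namespace Crest.Agent.N250.Hn

/-- a cover: open pieces `Ω k` in the variable `w`, the small parameter `t = τ w`, and the sizes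
`ε k l w` of the jumps -/
structure Cov (κ : Type*) where
  Ω : κ → Set ℂ
  τ : ℂ → ℂ
  ε : κ → κ → ℂ → ℝ
  isOpen : ∀ k, IsOpen (Ω k)
  diff : ∀ k, DifferentiableOn ℂ τ (Ω k)
  ne : ∀ k, ∀ w ∈ Ω k, τ w ≠ 0
  acc : ∀ r > 0, ∃ k, ∃ w ∈ Ω k, ‖τ w‖ < r

variable {κ : Type*}

/-- `t → 0` inside the pieces, uniformly in the index -/
def Cov.F (c : Cov κ) : Filter (κ × ℂ) :=
  comap (fun q => c.τ q.2) (𝓝 0) ⊓ 𝓟 {q | q.2 ∈ c.Ω q.1}

/-- `t → 0` inside the overlaps -/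
def Cov.J (c : Cov κ) : Filter (κ × κ × ℂ) :=
  comap (fun q => c.τ q.2.2) (𝓝 0) ⊓ 𝓟 {q | q.2.2 ∈ c.Ω q.1 ∧ q.2.2 ∈ c.Ω q.2.1}

namespace Cov

variable (c : Cov κ)

theorem evF {P : κ × ℂ → Prop} :
    (∀ᶠ q in c.F, P q) ↔ ∃ r > 0, ∀ k, ∀ w ∈ c.Ω k, ‖c.τ w‖ < r → P (k, w) := by
  unfold F
  rw [eventually_inf_principal, eventually_comap, Metric.eventually_nhds_iff_ball]
  constructor
  · rintro ⟨r, hr, h⟩
    exact ⟨r, hr, fun k w hw ht => h _ (mem_ball_zero_iff.2 ht) (k, w) rfl hw⟩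
  · rintro ⟨r, hr, h⟩
    refine ⟨r, hr, fun y hy q hq hw => h q.1 q.2 hw ?_⟩
    rw [hq]; exact mem_ball_zero_iff.1 hy

theorem evJ {P : κ × κ × ℂ → Prop} :
    (∀ᶠ q in c.J, P q) ↔
      ∃ r > 0, ∀ k l, ∀ w ∈ c.Ω k, w ∈ c.Ω l → ‖c.τ w‖ < r → P (k, l, w) := by
  unfold J
  rw [eventually_inf_principal, eventually_comap, Metric.eventually_nhds_iff_ball]
  constructor
  · rintro ⟨r, hr, h⟩
    exact ⟨r, hr, fun k l w hw hw' ht => h _ (mem_ball_zero_iff.2 ht) (k, l, w) rfl ⟨hw, hw'⟩⟩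
  · rintro ⟨r, hr, h⟩
    refine ⟨r, hr, fun y hy q hq hw => h q.1 q.2.1 q.2.2 hw.1 hw.2 ?_⟩
    rw [hq]; exact mem_ball_zero_iff.1 hy

instance neBot : c.F.NeBot := by
  refine ⟨fun h => ?_⟩
  have : ∀ᶠ q in c.F, False := by rw [h]; exact eventually_bot
  obtain ⟨r, hr, h1⟩ := c.evF.1 this
  obtain ⟨k, w, hw, ht⟩ := c.acc r hr
  exact h1 k w hw ht

theorem tF : Tendsto (fun q : κ × ℂ => c.τ q.2) c.F (𝓝 0) :=
  tendsto_inf_left tendsto_comap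

theorem neF : ∀ᶠ q in c.F, c.τ q.2 ≠ 0 := c.evF.2 ⟨1, one_pos, fun k w hw _ => c.ne k w hw⟩

theorem anaF : ∀ᶠ q in c.F, AnalyticAt ℂ c.τ q.2 :=
  c.evF.2 ⟨1, one_pos, fun k _ hw _ => (c.diff k).analyticAt ((c.isOpen k).mem_nhds hw)⟩

theorem le_one : ∀ᶠ q in c.F, ‖c.τ q.2‖ ≤ 1 := c.evF.2 ⟨1, one_pos, fun _ _ _ h => h.le⟩

theorem π₁ : Tendsto (fun q : κ × κ × ℂ => (q.1, q.2.2)) c.J c.F := by
  intro s hs
  obtain ⟨r, hr, h⟩ := c.evF.1 hs
  exact c.evJ.2 ⟨r, hr, fun k l w hw _ ht => h k w hw ht⟩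

theorem π₂ : Tendsto (fun q : κ × κ × ℂ => (q.2.1, q.2.2)) c.J c.F := by
  intro s hs
  obtain ⟨r, hr, h⟩ := c.evF.1 hs
  exact c.evJ.2 ⟨r, hr, fun k l w _ hw ht => h l w hw ht⟩

theorem powO {β : Type*} {m : Filter β} {π : β → κ × ℂ} (hπ : Tendsto π m c.F) {M N : ℕ}
    (h : M ≤ N) : (fun s => ‖c.τ (π s).2‖ ^ N) =O[m] fun s => ‖c.τ (π s).2‖ ^ M := by
  refine IsBigO.of_bound 1 ?_
  filter_upwards [hπ.eventually c.le_one] with s hs
  rw [one_mul, Real.norm_of_nonneg (by positivity), Real.norm_of_nonneg (by positivity)]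
  exact pow_le_pow_of_le_one (norm_nonneg _) hs h

/-- the jump gauge -/
def g (ν : ℕ) (q : κ × κ × ℂ) : ℝ := ‖c.τ q.2.2‖⁻¹ ^ ν * c.ε q.1 q.2.1 q.2.2

theorem gO {β : Type*} {m : Filter β} {π : β → κ × κ × ℂ} (hπ : Tendsto π m c.J) {μ ν : ℕ}
    (h : μ ≤ ν) : (fun s => c.g μ (π s)) =O[m] fun s => c.g ν (π s) := by
  refine IsBigO.mul ?_ (isBigO_refl _ _)
  refine IsBigO.of_bound 1 ?_
  filter_upwards [(c.π₁.comp hπ).eventually c.le_one, (c.π₁.comp hπ).eventually c.neF] with s hs hn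
  rw [one_mul, Real.norm_of_nonneg (by positivity), Real.norm_of_nonneg (by positivity)]
  exact pow_le_pow_right₀ (one_le_inv_iff₀.2 ⟨norm_pos_iff.2 hn, hs⟩) h

end Cov

variable {E E' V W : Type*} [NormedAddCommGroup E] [NormedSpace ℂ E] [FiniteDimensional ℂ E]
  [NormedAddCommGroup E'] [NormedSpace ℂ E'] [FiniteDimensional ℂ E']
  [NormedAddCommGroup V] [NormedSpace ℂ V] [CompleteSpace V]
  [NormedAddCommGroup W] [NormedSpace ℂ W] [CompleteSpace W]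

/-- families with small jumps and asymptotic expansions -/
structure CF (c : Cov κ) (F : κ → ℂ × E → V) : Prop where
  hol : ∀ᶠ x in c.F ×ˢ 𝓝 (0 : E), AnalyticAt ℂ (F x.1.1) (x.1.2, x.2)
  jump : ∃ ν : ℕ, (fun x : (κ × κ × ℂ) × E => F x.1.1 (x.1.2.2, x.2) - F x.1.2.1 (x.1.2.2, x.2))
    =O[c.J ×ˢ 𝓝 (0 : E)] fun x => c.g ν x.1
  asy : ∀ N : ℕ, ∃ K : ℂ × E → V, AnalyticAt ℂ K 0 ∧
    (fun x : (κ × ℂ) × E => F x.1.1 (x.1.2, x.2) - K (c.τ x.1.2, x.2)) =O[c.F ×ˢ 𝓝 (0 : E)]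
      fun x => ‖c.τ x.1.2‖ ^ N

variable {c : Cov κ}

theorem tT (c : Cov κ) : Tendsto (fun x : (κ × ℂ) × E => (c.τ x.1.2, x.2)) (c.F ×ˢ 𝓝 (0 : E))
    (𝓝 0) := (c.tF.comp tendsto_fst).prodMk_nhds tendsto_snd

theorem tJ₁ (c : Cov κ) : Tendsto (fun x : (κ × κ × ℂ) × E => ((x.1.1, x.1.2.2), x.2))
    (c.J ×ˢ 𝓝 (0 : E)) (c.F ×ˢ 𝓝 (0 : E)) := (c.π₁.comp tendsto_fst).prodMk tendsto_snd

theorem tJ₂ (c : Cov κ) : Tendsto (fun x : (κ × κ × ℂ) × E => ((x.1.2.1, x.1.2.2), x.2))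
    (c.J ×ˢ 𝓝 (0 : E)) (c.F ×ˢ 𝓝 (0 : E)) := (c.π₂.comp tendsto_fst).prodMk tendsto_snd

/-- differentiability on the open pieces gives the field `hol` -/
theorem hol_of_diff {F : κ → ℂ × E → V}
    (h : ∀ᶠ x in c.F ×ˢ 𝓝 (0 : E), DifferentiableAt ℂ (F x.1.1) (x.1.2, x.2)) :
    ∀ᶠ x in c.F ×ˢ 𝓝 (0 : E), AnalyticAt ℂ (F x.1.1) (x.1.2, x.2) := by
  obtain ⟨r, hr, h⟩ := ev_ball h
  obtain ⟨r', hr', h⟩ := c.evF.1 h
  refine ev_of_ball hr (c.evF.2 ⟨r', hr', fun k w hw ht z hz => ?_⟩)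
  have ho : IsOpen ((c.Ω k ∩ c.τ ⁻¹' ball 0 r') ×ˢ ball (0 : E) r) :=
    ((c.diff k).continuousOn.isOpen_inter_preimage (c.isOpen k) isOpen_ball).prod isOpen_ball
  exact R266.SCV.analyticOnNhd_of_differentiableOn ho
    (fun p hp => (h k p.1 hp.1.1 (mem_ball_zero_iff.1 hp.1.2) p.2 hp.2).differentiableWithinAt)
    (w, z) ⟨⟨hw, mem_ball_zero_iff.2 ht⟩, hz⟩

theorem slice_ana {G : ℂ × E → V} {w : ℂ} {z : E} (h : AnalyticAt ℂ G (w, z)) :
    AnalyticAt ℂ (fun y => G (w, y)) z :=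
  h.comp (f := fun y : E => (w, y)) (analyticAt_const.prod analyticAt_id)

theorem ana_slice {K : ℂ × E → V} (hK : AnalyticAt ℂ K 0) :
    ∀ᶠ x in c.F ×ˢ 𝓝 (0 : E), DifferentiableAt ℂ (fun y => K (c.τ x.1.2, y)) x.2 :=
  ((tT c).eventually hK.eventually_analyticAt).mono fun _ hx => (slice_ana hx).differentiableAt

theorem ana_bdd {K : ℂ × E → V} (hK : AnalyticAt ℂ K 0) :
    (fun x : (κ × ℂ) × E => K (c.τ x.1.2, x.2)) =O[c.F ×ˢ 𝓝 (0 : E)] fun _ => (1 : ℝ) :=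
  (hK.continuousAt.tendsto.comp (tT c)).isBigO_one ℝ

namespace CF

variable {F G : κ → ℂ × E → V}

theorem sl (h : CF c F) :
    ∀ᶠ x in c.F ×ˢ 𝓝 (0 : E), DifferentiableAt ℂ (fun y => F x.1.1 (x.1.2, y)) x.2 :=
  h.hol.mono fun _ hx => (slice_ana hx).differentiableAt

theorem bdd (h : CF c F) :
    (fun x : (κ × ℂ) × E => F x.1.1 (x.1.2, x.2)) =O[c.F ×ˢ 𝓝 (0 : E)] fun _ => (1 : ℝ) := by
  obtain ⟨K, hK, h1⟩ := h.asy 0
  have := (h1.congr_right (fun x => pow_zero _)).add (ana_bdd hK)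
  simpa using this

theorem lip (h : CF c F) {β : Type*} {m : Filter β} {π : β → κ × ℂ} {x y : β → E}
    (hπ : Tendsto π m c.F) (hx : Tendsto x m (𝓝 0)) (hy : Tendsto y m (𝓝 0)) :
    (fun s => F (π s).1 ((π s).2, x s) - F (π s).1 ((π s).2, y s)) =O[m] fun s => x s - y s := by
  have := lipO (G := fun q y => F q.1 (q.2, y)) (b := fun _ => 1) h.sl h.bdd hπ hx hy
  simpa using this

theorem of_ana {K : ℂ × E → V} (hK : AnalyticAt ℂ K 0) :
    CF c (fun (_ : κ) (x : ℂ × E) => K (c.τ x.1, x.2)) where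
  hol := by
    filter_upwards [(tT c).eventually hK.eventually_analyticAt, tendsto_fst.eventually c.anaF]
      with x hx ht
    exact AnalyticAt.comp (g := K) (f := fun p : ℂ × E => (c.τ p.1, p.2)) hx
      ((AnalyticAt.comp (g := c.τ) (f := fun p : ℂ × E => p.1) ht analyticAt_fst).prod
        analyticAt_snd)
  jump := ⟨0, by simpa using isBigO_zero _ _⟩
  asy N := ⟨K, hK, by simpa using isBigO_zero _ _⟩

theorem add (hF : CF c F) (hG : CF c G) : CF c (fun k x => F k x + G k x) where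
  hol := (hF.hol.and hG.hol).mono fun _ hx => hx.1.add hx.2
  jump := by
    obtain ⟨μ, h1⟩ := hF.jump
    obtain ⟨ν, h2⟩ := hG.jump
    refine ⟨max μ ν, ((h1.trans (c.gO tendsto_fst (le_max_left _ _))).add
      (h2.trans (c.gO tendsto_fst (le_max_right _ _)))).congr_left fun x => ?_⟩
    abel
  asy N := by
    obtain ⟨K, hK, h1⟩ := hF.asy N
    obtain ⟨L, hL, h2⟩ := hG.asy N
    refine ⟨fun p => K p + L p, hK.add hL, (h1.add h2).congr_left fun x => ?_⟩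
    beta_reduce
    abel

theorem clm (hF : CF c F) (L : V →L[ℂ] W) : CF c (fun k x => L (F k x)) where
  hol := hF.hol.mono fun _ hx => (L.analyticAt _).comp hx
  jump := by
    obtain ⟨μ, h1⟩ := hF.jump
    exact ⟨μ, ((L.isBigO_comp _ _).trans h1).congr_left fun x => by simp⟩
  asy N := by
    obtain ⟨K, hK, h1⟩ := hF.asy N
    exact ⟨fun p => L (K p), (L.analyticAt _).comp hK,
      ((L.isBigO_comp _ _).trans h1).congr_left fun x => by simp⟩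

theorem neg (hF : CF c F) : CF c (fun k x => -F k x) := hF.clm (-ContinuousLinearMap.id ℂ V)

theorem sub (hF : CF c F) (hG : CF c G) : CF c (fun k x => F k x - G k x) := by
  simpa [sub_eq_add_neg] using hF.add hG.neg

/-- the value at the origin of an expansion is the limit of the family -/
theorem asy_zero {K : ℂ × E → V} {N : ℕ} (hK : AnalyticAt ℂ K 0)
    (h1 : (fun x : (κ × ℂ) × E => F x.1.1 (x.1.2, x.2) - K (c.τ x.1.2, x.2)) =O[c.F ×ˢ 𝓝 (0 : E)]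
      fun x => ‖c.τ x.1.2‖ ^ (N + 1)) :
    Tendsto (fun x : (κ × ℂ) × E => F x.1.1 (x.1.2, x.2)) (c.F ×ˢ 𝓝 (0 : E)) (𝓝 (K 0)) := by
  have h2 : Tendsto (fun x : (κ × ℂ) × E => ‖c.τ x.1.2‖ ^ (N + 1)) (c.F ×ˢ 𝓝 (0 : E)) (𝓝 0) := by
    simpa using ((c.tF.comp tendsto_fst).norm.pow (N + 1) :
      Tendsto (fun x : (κ × ℂ) × E => ‖c.τ x.1.2‖ ^ (N + 1)) (c.F ×ˢ 𝓝 (0 : E)) _)
  simpa using (h1.trans_tendsto h2).add (hK.continuousAt.tendsto.comp (tT c))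

theorem comp (hF : CF c F) {Φ : κ → ℂ × E' → E} (hΦ : CF c Φ)
    (h0 : Tendsto (fun x : (κ × ℂ) × E' => Φ x.1.1 (x.1.2, x.2)) (c.F ×ˢ 𝓝 (0 : E')) (𝓝 0)) :
    CF c (fun k (x : ℂ × E') => F k (x.1, Φ k x)) where
  hol := by
    filter_upwards [hΦ.hol, (tendsto_fst.prodMk h0).eventually hF.hol] with x hx hx'
    exact AnalyticAt.comp (g := F x.1.1) (f := fun p : ℂ × E' => (p.1, Φ x.1.1 p)) hx'
      (analyticAt_fst.prod hx)
  jump := by
    obtain ⟨μ, h1⟩ := hF.jump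
    obtain ⟨ν, h2⟩ := hΦ.jump
    have h3 := h1.comp_tendsto (tendsto_fst.prodMk (h0.comp (tJ₂ c)))
    have h4 := (hF.lip (c.π₁.comp tendsto_fst) (h0.comp (tJ₁ c)) (h0.comp (tJ₂ c))).trans h2
    refine ⟨max μ ν, ((h3.trans (c.gO tendsto_fst (le_max_left _ _))).add
      (h4.trans (c.gO tendsto_fst (le_max_right _ _)))).congr_left fun x => ?_⟩
    simp
  asy N := by
    obtain ⟨K, hK, h1⟩ := hF.asy N
    obtain ⟨L, hL, h2⟩ := hΦ.asy (N + 1)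
    have hL0 : L 0 = 0 := tendsto_nhds_unique (asy_zero hL h2) h0
    have hLt : Tendsto (fun x : (κ × ℂ) × E' => L (c.τ x.1.2, x.2)) (c.F ×ˢ 𝓝 (0 : E')) (𝓝 0) := by
      have := hL.continuousAt.tendsto.comp (tT c)
      rwa [hL0] at this
    refine ⟨fun p => K (p.1, L p), ?_, ?_⟩
    · refine AnalyticAt.comp (g := K) (f := fun p : ℂ × E' => (p.1, L p)) ?_
        (analyticAt_fst.prod hL)
      have : ((0 : ℂ × E').1, L 0) = 0 := by rw [hL0]; rfl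
      rw [this]; exact hK
    · have h3 := h1.comp_tendsto (tendsto_fst.prodMk hLt)
      have h4 := ((hF.lip tendsto_fst h0 hLt).trans h2).trans
        (c.powO tendsto_fst (Nat.le_succ N))
      refine (h3.add h4).congr_left fun x => ?_
      simp

theorem div (hF : CF c F) (m : ℕ)
    (h : (fun x : (κ × ℂ) × E => F x.1.1 (x.1.2, x.2)) =O[c.F ×ˢ 𝓝 (0 : E)]
      fun x => ‖c.τ x.1.2‖ ^ m) : CF c (fun k x => (c.τ x.1 ^ m)⁻¹ • F k x) where
  hol := by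
    filter_upwards [hF.hol, tendsto_fst.eventually c.anaF, tendsto_fst.eventually c.neF]
      with x hx ht hn
    have h1 : AnalyticAt ℂ (fun p : ℂ × E => c.τ p.1 ^ m) (x.1.2, x.2) :=
      (AnalyticAt.comp (g := c.τ) (f := fun p : ℂ × E => p.1) ht analyticAt_fst).pow m
    exact (h1.inv (pow_ne_zero _ hn)).smul hx
  jump := by
    obtain ⟨μ, h1⟩ := hF.jump
    refine ⟨m + μ, ?_⟩
    have h2 : (fun x : (κ × κ × ℂ) × E => (c.τ x.1.2.2 ^ m)⁻¹) =O[c.J ×ˢ 𝓝 (0 : E)]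
        fun x => ‖c.τ x.1.2.2‖⁻¹ ^ m := IsBigO.of_bound 1 (by simp)
    refine (h2.smul h1).congr (fun x => smul_sub _ _ _) (fun x => ?_)
    simp [Cov.g, pow_add, mul_assoc]
  asy N := by
    obtain ⟨K, hK, h1⟩ := hF.asy (m + N)
    have h2 : (fun x : (κ × ℂ) × E => K (c.τ x.1.2, x.2)) =O[c.F ×ˢ 𝓝 (0 : E)]
        fun x => ‖c.τ x.1.2‖ ^ m := by
      refine (h.sub (h1.trans (c.powO tendsto_fst (Nat.le_add_right m N)))).congr_left fun x => ?_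
      abel
    obtain ⟨K', hK', h3⟩ := div_pow c.tF c.neF m hK h2
    refine ⟨K', hK', ?_⟩
    have h4 : (fun x : (κ × ℂ) × E => (c.τ x.1.2 ^ m)⁻¹) =O[c.F ×ˢ 𝓝 (0 : E)]
        fun x => (‖c.τ x.1.2‖ ^ m)⁻¹ := IsBigO.of_bound 1 (by simp)
    refine (h4.smul h1).congr' ?_ ?_
    · filter_upwards [(tT c).eventually h3, tendsto_fst.eventually c.neF] with x hx hn
      rw [hx, smul_sub, smul_smul, inv_mul_cancel₀ (pow_ne_zero _ hn), one_smul]
    · filter_upwards [tendsto_fst.eventually c.neF] with x hn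
      have := norm_pos_iff.2 hn
      rw [smul_eq_mul, pow_add]
      field_simp

end CF

/-- derivative in the variables `z` -/
def Dz (G : ℂ × E → V) (x : ℂ × E) : E →L[ℂ] V := fderiv ℂ (fun y => G (x.1, y)) x.2

theorem Dz_ana {G : ℂ × E → V} {x : ℂ × E} (h : AnalyticAt ℂ G x) : AnalyticAt ℂ (Dz G) x := by
  have h1 : AnalyticAt ℂ (fun p => (fderiv ℂ G p).comp (ContinuousLinearMap.inr ℂ ℂ E)) x :=
    (((ContinuousLinearMap.compL ℂ E (ℂ × E) V).flip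
      (ContinuousLinearMap.inr ℂ ℂ E)).analyticAt _).comp h.fderiv
  refine h1.congr ?_
  filter_upwards [h.eventually_analyticAt] with p hp
  exact ((hp.differentiableAt.hasFDerivAt.comp p.2
    (hasFDerivAt_prodMk_right p.1 p.2)).fderiv).symm

theorem CF.dz {F : κ → ℂ × E → V} (hF : CF c F) : CF c (fun k => Dz (F k)) where
  hol := hF.hol.mono fun _ hx => Dz_ana hx
  jump := by
    obtain ⟨μ, h1⟩ := hF.jump
    have h2 := (tJ₁ c).eventually hF.sl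
    have h3 := (tJ₂ c).eventually hF.sl
    refine ⟨μ, (cauchyO (G := fun q : κ × κ × ℂ => fun y => F q.1 (q.2.2, y) - F q.2.1 (q.2.2, y))
      ((h2.and h3).mono fun x hx => hx.1.sub hx.2) h1).congr' ?_ EventuallyEq.rfl⟩
    filter_upwards [h2, h3] with x hx hx'
    exact fderiv_fun_sub hx hx'
  asy N := by
    obtain ⟨K, hK, h1⟩ := hF.asy N
    have h3 := ana_slice (c := c) hK
    refine ⟨Dz K, Dz_ana hK, (cauchyO (b := fun q : κ × ℂ => ‖c.τ q.2‖ ^ N)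
      (G := fun q : κ × ℂ => fun y => F q.1 (q.2, y) - K (c.τ q.2, y))
      ((hF.sl.and h3).mono fun x hx => hx.1.sub hx.2) h1).congr' ?_ EventuallyEq.rfl⟩
    filter_upwards [hF.sl, h3] with x hx hx'
    exact fderiv_fun_sub hx hx'

end Crest.Agent.N250.Hn
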