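import Crest.Agent.R266.SCV

/-! Cauchy estimates in `IsBigO` form (uniform in a parameter) and analytic division by the first
coordinate. -/

set_option autoImplicit false
set_option linter.unusedSectionVars false

open Filter Topology Asymptotics Metric Set

noncomputable section

namespace Crest.Agent.N250.Hn

variable {E V : Type*} [NormedAddCommGroup E] [NormedSpace ℂ E] [NormedAddCommGroup V]
  [NormedSpace ℂ V]

/-- a property eventually true along `l ×ˢ 𝓝 0` holds on a fixed ball -/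
theorem ev_ball {α : Type*} {l : Filter α} {P : α × E → Prop}
    (h : ∀ᶠ x in l ×ˢ 𝓝 (0 : E), P x) : ∃ r > 0, ∀ᶠ a in l, ∀ z ∈ ball (0 : E) r, P (a, z) := by
  obtain ⟨pa, ha, pb, hb, hh⟩ := eventually_prod_iff.1 h
  obtain ⟨r, hr, hb'⟩ := Metric.eventually_nhds_iff_ball.1 hb
  exact ⟨r, hr, ha.mono fun a h1 z hz => hh h1 (hb' z hz)⟩

theorem ev_of_ball {α : Type*} {l : Filter α} {P : α × E → Prop} {r : ℝ} (hr : 0 < r)
    (h : ∀ᶠ a in l, ∀ z ∈ ball (0 : E) r, P (a, z)) : ∀ᶠ x in l ×ˢ 𝓝 (0 : E), P x :=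
  eventually_prod_iff.2 ⟨_, h, fun z => z ∈ ball (0 : E) r, ball_mem_nhds _ hr,
    fun ha _ hz => ha _ hz⟩

/-- uniform data on a ball -/
theorem unif_ball {α : Type*} {l : Filter α} {G : α → E → V} {b : α → ℝ}
    (hd : ∀ᶠ x in l ×ˢ 𝓝 (0 : E), DifferentiableAt ℂ (G x.1) x.2)
    (hb : (fun x : α × E => G x.1 x.2) =O[l ×ˢ 𝓝 (0 : E)] fun x => b x.1) :
    ∃ r > 0, ∃ C > 0, ∀ᶠ a in l, ∀ z ∈ ball (0 : E) r, DifferentiableAt ℂ (G a) z ∧
      ‖G a z‖ ≤ C * ‖b a‖ ∧ ‖fderiv ℂ (G a) z‖ ≤ C * ‖b a‖ := by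
  obtain ⟨C, hC, hb⟩ := hb.exists_pos
  obtain ⟨r, hr, h⟩ := ev_ball (hd.and hb.bound)
  refine ⟨r / 2, by positivity, C + C / (r / 2), by positivity, h.mono fun a ha z hz => ?_⟩
  have hsub : ball z (r / 2) ⊆ ball (0 : E) r := by
    refine ball_subset_ball' ?_
    have := mem_ball.1 hz
    linarith
  have hz' : z ∈ ball (0 : E) r := hsub (mem_ball_self (by positivity))
  have h1 := R266.SCV.norm_fderiv_le_of_ball (f := G a) (x := z) (r := r / 2) (M := C * ‖b a‖)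
    (by positivity) (fun y hy => (ha y (hsub hy)).1.differentiableWithinAt)
    (fun y hy => (ha y (hsub hy)).2)
  have h2 : 0 ≤ C / (r / 2) * ‖b a‖ := by positivity
  have h3 : 0 ≤ C * ‖b a‖ := by positivity
  refine ⟨(ha z hz').1, ?_, ?_⟩
  · have := (ha z hz').2
    nlinarith
  · have h4 : C * ‖b a‖ / (r / 2) = C / (r / 2) * ‖b a‖ := by ring
    nlinarith

theorem cauchyO {α : Type*} {l : Filter α} {G : α → E → V} {b : α → ℝ}
    (hd : ∀ᶠ x in l ×ˢ 𝓝 (0 : E), DifferentiableAt ℂ (G x.1) x.2)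
    (hb : (fun x : α × E => G x.1 x.2) =O[l ×ˢ 𝓝 (0 : E)] fun x => b x.1) :
    (fun x : α × E => fderiv ℂ (G x.1) x.2) =O[l ×ˢ 𝓝 (0 : E)] fun x => b x.1 := by
  obtain ⟨r, hr, C, _, h⟩ := unif_ball hd hb
  exact IsBigO.of_bound C (ev_of_ball hr (h.mono fun a ha z hz => (ha z hz).2.2))

theorem lipO {α β : Type*} {l : Filter α} {G : α → E → V} {b : α → ℝ}
    (hd : ∀ᶠ x in l ×ˢ 𝓝 (0 : E), DifferentiableAt ℂ (G x.1) x.2)
    (hb : (fun x : α × E => G x.1 x.2) =O[l ×ˢ 𝓝 (0 : E)] fun x => b x.1)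
    {m : Filter β} {π : β → α} {x y : β → E} (hπ : Tendsto π m l) (hx : Tendsto x m (𝓝 0))
    (hy : Tendsto y m (𝓝 0)) :
    (fun s => G (π s) (x s) - G (π s) (y s)) =O[m] fun s => b (π s) * ‖x s - y s‖ := by
  obtain ⟨r, hr, C, _, h⟩ := unif_ball hd hb
  refine IsBigO.of_bound C ?_
  filter_upwards [hπ.eventually h, hx.eventually (ball_mem_nhds _ hr),
    hy.eventually (ball_mem_nhds _ hr)] with s ha hxs hys
  have := (convex_ball (0 : E) r).norm_image_sub_le_of_norm_fderiv_le (𝕜 := ℂ) (f := G (π s))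
    (C := C * ‖b (π s)‖) (fun z hz => (ha z hz).1) (fun z hz => (ha z hz).2.2) hys hxs
  rw [norm_mul, norm_norm, ← mul_assoc]
  exact this

theorem ev_ana [FiniteDimensional ℂ E] [CompleteSpace V] {α : Type*} {l : Filter α}
    {G : α → E → V} (hd : ∀ᶠ x in l ×ˢ 𝓝 (0 : E), DifferentiableAt ℂ (G x.1) x.2) :
    ∀ᶠ x in l ×ˢ 𝓝 (0 : E), AnalyticAt ℂ (G x.1) x.2 := by
  obtain ⟨r, hr, h⟩ := ev_ball hd
  refine ev_of_ball hr (h.mono fun a ha z hz => ?_)
  exact R266.SCV.analyticOnNhd_of_differentiableOn isOpen_ball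
    (fun y hy => (ha y hy).differentiableWithinAt) z hz

theorem tayO [FiniteDimensional ℂ E] [CompleteSpace V] {α β : Type*} {l : Filter α}
    {G : α → E → V} {b : α → ℝ}
    (hd : ∀ᶠ x in l ×ˢ 𝓝 (0 : E), DifferentiableAt ℂ (G x.1) x.2)
    (hb : (fun x : α × E => G x.1 x.2) =O[l ×ˢ 𝓝 (0 : E)] fun x => b x.1)
    {m : Filter β} {π : β → α} {x y : β → E} (hπ : Tendsto π m l) (hx : Tendsto x m (𝓝 0))
    (hy : Tendsto y m (𝓝 0)) :
    (fun s => G (π s) (x s) - G (π s) (y s) - fderiv ℂ (G (π s)) (y s) (x s - y s)) =O[m]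
      fun s => b (π s) * ‖x s - y s‖ ^ 2 := by
  have hd2 : ∀ᶠ x in l ×ˢ 𝓝 (0 : E), DifferentiableAt ℂ (fderiv ℂ (G x.1)) x.2 :=
    (ev_ana hd).mono fun x hx => hx.fderiv.differentiableAt
  obtain ⟨r, hr, C, hC, h⟩ := unif_ball (G := fun a => fderiv ℂ (G a)) hd2 (cauchyO hd hb)
  obtain ⟨r', hr', h'⟩ := ev_ball hd
  refine IsBigO.of_bound C ?_
  have hρ : 0 < min r r' := lt_min hr hr'
  filter_upwards [hπ.eventually h, hπ.eventually h', hx.eventually (ball_mem_nhds _ hρ),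
    hy.eventually (ball_mem_nhds _ hρ)] with s ha ha' hxs hys
  have hs : segment ℝ (y s) (x s) ⊆ ball (0 : E) (min r r') :=
    (convex_ball _ _).segment_subset hys hxs
  have hl : ∀ z ∈ segment ℝ (y s) (x s), ‖fderiv ℂ (G (π s)) z - fderiv ℂ (G (π s)) (y s)‖ ≤
      C * ‖b (π s)‖ * ‖x s - y s‖ := by
    intro z hz
    have h1 := (convex_ball (0 : E) r).norm_image_sub_le_of_norm_fderiv_le (𝕜 := ℂ)
      (f := fderiv ℂ (G (π s))) (C := C * ‖b (π s)‖) (fun z hz => (ha z hz).1)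
      (fun z hz => (ha z hz).2.2) (ball_subset_ball (min_le_left _ _) hys)
      (ball_subset_ball (min_le_left _ _) (hs hz))
    refine h1.trans (mul_le_mul_of_nonneg_left ?_ (by positivity))
    obtain ⟨u, v, hu, hv, huv, rfl⟩ := hz
    have : u • y s + v • x s - y s = v • (x s - y s) := by
      have : u = 1 - v := by linarith
      rw [this]; module
    rw [this, norm_smul, Real.norm_of_nonneg hv]
    exact mul_le_of_le_one_left (norm_nonneg _) (by linarith)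
  have := (convex_segment (y s) (x s)).norm_image_sub_le_of_norm_fderiv_le' (𝕜 := ℂ)
    (f := G (π s)) (φ := fderiv ℂ (G (π s)) (y s)) (C := C * ‖b (π s)‖ * ‖x s - y s‖)
    (fun z hz => ha' z (ball_subset_ball (min_le_right _ _) (hs hz))) hl
    (left_mem_segment _ _ _) (right_mem_segment _ _ _)
  refine this.trans (le_of_eq ?_)
  rw [norm_mul, norm_pow, norm_norm]; ring

/-- analytic Hadamard lemma in the first coordinate -/
theorem div_fst [FiniteDimensional ℂ E] [CompleteSpace V] {K : ℂ × E → V}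
    (hK : AnalyticAt ℂ K 0) (h0 : ∀ᶠ z in 𝓝 (0 : E), K (0, z) = 0) :
    ∃ K' : ℂ × E → V, AnalyticAt ℂ K' 0 ∧ ∀ᶠ p in 𝓝 (0 : ℂ × E), K p = p.1 • K' p := by
  have h1 : ∀ᶠ p in 𝓝 (0 : ℂ × E), AnalyticAt ℂ K p ∧ K (0, p.2) = 0 :=
    hK.eventually_analyticAt.and
      ((continuous_snd.tendsto' (0 : ℂ × E) 0 rfl).eventually h0)
  obtain ⟨r, hr, h⟩ := Metric.eventually_nhds_iff_ball.1 h1
  have hm : ∀ p ∈ ball (0 : ℂ × E) r, ∀ s ∈ uIcc (0 : ℝ) 1,
      (((s : ℂ) * p.1, p.2) : ℂ × E) ∈ ball (0 : ℂ × E) r := by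
    intro p hp s hs
    rw [uIcc_of_le zero_le_one] at hs
    rw [mem_ball_zero_iff] at hp ⊢
    refine lt_of_le_of_lt ?_ hp
    simp only [Prod.norm_def]
    refine max_le_max ?_ le_rfl
    rw [norm_mul, Complex.norm_real, Real.norm_of_nonneg hs.1]
    exact mul_le_of_le_one_left (norm_nonneg _) hs.2
  set D : ℂ × E → V := fun p => fderiv ℂ K p (1, 0) with hD
  have hDa : ∀ p ∈ ball (0 : ℂ × E) r, AnalyticAt ℂ D p := fun p hp =>
    ((ContinuousLinearMap.apply ℂ V ((1, 0) : ℂ × E)).analyticAt _).comp (h p hp).1.fderiv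
  have hDc : ContinuousOn D (ball (0 : ℂ × E) r) := fun p hp =>
    (hDa p hp).continuousAt.continuousWithinAt
  refine ⟨fun p => ∫ s in (0 : ℝ)..1, D ((s : ℂ) * p.1, p.2), ?_, ?_⟩
  · refine R266.SCV.analyticOnNhd_intervalIntegral
      (f := fun q : (ℂ × E) × ℝ => D ((q.2 : ℂ) * q.1.1, q.1.2)) isOpen_ball ?_ ?_ 0
      (mem_ball_self hr)
    · refine hDc.comp (by fun_prop) ?_
      rintro ⟨p, s⟩ ⟨hp, hs⟩
      exact hm p hp s hs
    · intro s hs p hp
      refine DifferentiableAt.differentiableWithinAt ?_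
      exact (hDa _ (hm p hp s hs)).differentiableAt.comp p
        (f := fun x : ℂ × E => (((s : ℂ) * x.1, x.2) : ℂ × E)) (by fun_prop)
  · filter_upwards [ball_mem_nhds (0 : ℂ × E) hr] with p hp
    have hder : ∀ s ∈ uIcc (0 : ℝ) 1, HasDerivAt (fun s : ℝ => K ((s : ℂ) * p.1, p.2))
        (p.1 • D ((s : ℂ) * p.1, p.2)) s := by
      intro s hs
      have h2 : HasDerivAt (fun s : ℝ => (((s : ℂ) * p.1, p.2) : ℂ × E)) (p.1, 0) s := by
        refine HasDerivAt.prodMk ?_ (hasDerivAt_const _ _)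
        simpa using (Complex.ofRealCLM.hasDerivAt (x := s)).mul_const p.1
      have h3 := ((h _ (hm p hp s hs)).1.differentiableAt.hasFDerivAt.restrictScalars ℝ
        ).comp_hasDerivAt s h2
      have h4 : p.1 • D ((s : ℂ) * p.1, p.2) =
          (fderiv ℂ K ((s : ℂ) * p.1, p.2)) (p.1, 0) := by
        simp only [hD, ← map_smul]
        simp
      rw [h4]
      exact h3
    have hint : IntervalIntegrable (fun s : ℝ => p.1 • D ((s : ℂ) * p.1, p.2))
        MeasureTheory.volume 0 1 := by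
      refine ContinuousOn.intervalIntegrable ?_
      refine ContinuousOn.const_smul ?_ _
      exact hDc.comp (by fun_prop) (fun s hs => hm p hp s hs)
    have := intervalIntegral.integral_eq_sub_of_hasDerivAt hder hint
    rw [intervalIntegral.integral_smul] at this
    rw [this]
    simp [(h p hp).2]

/-- division by `t ^ m` of an analytic germ that is `O(t ^ m)` along a filter on which `t → 0`,
`t ≠ 0` -/
theorem div_pow [FiniteDimensional ℂ E] [CompleteSpace V] {α : Type*} {l : Filter α} [l.NeBot]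
    {t : α → ℂ} (ht : Tendsto t l (𝓝 0)) (hne : ∀ᶠ a in l, t a ≠ 0) (m : ℕ) :
    ∀ {K : ℂ × E → V}, AnalyticAt ℂ K 0 →
      (fun x : α × E => K (t x.1, x.2)) =O[l ×ˢ 𝓝 (0 : E)] (fun x => ‖t x.1‖ ^ m) →
      ∃ K' : ℂ × E → V, AnalyticAt ℂ K' 0 ∧ ∀ᶠ p in 𝓝 (0 : ℂ × E), K p = p.1 ^ m • K' p := by
  induction m with
  | zero => exact fun {K} hK _ => ⟨K, hK, by simp⟩
  | succ m ih =>
    intro K hK hO
    have hT : Tendsto (fun x : α × E => (t x.1, x.2)) (l ×ˢ 𝓝 (0 : E)) (𝓝 0) :=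
      (ht.comp tendsto_fst).prodMk_nhds tendsto_snd
    have h0 : ∀ᶠ z in 𝓝 (0 : E), K (0, z) = 0 := by
      obtain ⟨C, hC⟩ := hO.bound
      obtain ⟨r, hr, h⟩ := ev_ball hC
      have hc : ∀ᶠ z in 𝓝 (0 : E), ContinuousAt K (0, z) :=
        ((Continuous.prodMk_right (0 : ℂ)).tendsto' (0 : E) 0 rfl).eventually
          (hK.eventually_analyticAt.mono fun p hp => hp.continuousAt)
      filter_upwards [hc, ball_mem_nhds (0 : E) hr] with z hz hz'
      have h1 : Tendsto (fun a => K (t a, z)) l (𝓝 (K (0, z))) :=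
        hz.tendsto.comp (ht.prodMk_nhds tendsto_const_nhds)
      have h2 : Tendsto (fun a => K (t a, z)) l (𝓝 0) := by
        refine squeeze_zero_norm' (h.mono fun a ha => ha z hz') ?_
        have : Tendsto (fun a => C * ‖‖t a‖ ^ (m + 1)‖) l (𝓝 (C * ‖‖(0 : ℂ)‖ ^ (m + 1)‖)) :=
          ((ht.norm.pow _).norm).const_mul C
        simpa using this
      exact tendsto_nhds_unique h1 h2
    obtain ⟨K1, hK1, h1⟩ := div_fst hK h0
    obtain ⟨K2, hK2, h2⟩ := ih hK1 (by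
      obtain ⟨C, hC⟩ := hO.bound
      refine IsBigO.of_bound C ?_
      filter_upwards [hC, hT.eventually h1, tendsto_fst.eventually hne] with x hx hx1 hx2
      rw [hx1, norm_smul, Real.norm_of_nonneg (by positivity), pow_succ'] at hx
      rw [Real.norm_of_nonneg (by positivity)]
      have := norm_pos_iff.2 hx2
      nlinarith [hx])
    refine ⟨K2, hK2, ?_⟩
    filter_upwards [h1, h2] with p hp hp2
    rw [hp, hp2, smul_smul, pow_succ']

end Crest.Agent.N250.Hn
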