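import Crest.Agent.N250.Hn.CF

/-! Fixed points `x = a + R (w, x)` with `R = O(t)` stay in the class `CF`. -/

set_option autoImplicit false
set_option linter.unusedSectionVars false

open Filter Topology Asymptotics Metric Set

noncomputable section

namespace Crest.Agent.N250.Hn

variable {κ : Type*} {E : Type*} [NormedAddCommGroup E] [NormedSpace ℂ E] [FiniteDimensional ℂ E]
  [CompleteSpace E] {c : Cov κ}

theorem CF.lipt {R : κ → ℂ × E → E} (hR : CF c R)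
    (h1 : (fun x : (κ × ℂ) × E => R x.1.1 (x.1.2, x.2)) =O[c.F ×ˢ 𝓝 (0 : E)]
      fun x => ‖c.τ x.1.2‖ ^ 1)
    {β : Type*} {m : Filter β} {π : β → κ × ℂ} {x y : β → E}
    (hπ : Tendsto π m c.F) (hx : Tendsto x m (𝓝 0)) (hy : Tendsto y m (𝓝 0)) :
    (fun s => R (π s).1 ((π s).2, x s) - R (π s).1 ((π s).2, y s)) =O[m]
      fun s => ‖c.τ (π s).2‖ ^ 1 * ‖x s - y s‖ :=
  lipO (G := fun q y => R q.1 (q.2, y)) (b := fun q => ‖c.τ q.2‖ ^ 1) hR.sl h1 hπ hx hy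

theorem CF.stab {R : κ → ℂ × E → E} (hR : CF c R)
    (h1 : (fun x : (κ × ℂ) × E => R x.1.1 (x.1.2, x.2)) =O[c.F ×ˢ 𝓝 (0 : E)]
      fun x => ‖c.τ x.1.2‖ ^ 1)
    {β : Type*} {m : Filter β} {π : β → κ × ℂ} {x y : β → E}
    (hπ : Tendsto π m c.F) (hx : Tendsto x m (𝓝 0)) (hy : Tendsto y m (𝓝 0)) :
    (fun s => x s - y s) =O[m]
      fun s => (x s - R (π s).1 ((π s).2, x s)) - (y s - R (π s).1 ((π s).2, y s)) := by
  obtain ⟨C, hC, h⟩ := (hR.lipt h1 hπ hx hy).exists_pos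
  have ht : ∀ᶠ s in m, ‖c.τ (π s).2‖ < 1 / (2 * C) := by
    have := (c.tF.comp hπ).norm
    rw [norm_zero] at this
    exact this.eventually (gt_mem_nhds (by positivity))
  refine IsBigO.of_bound 2 ?_
  filter_upwards [h.bound, ht] with s hs hs'
  rw [pow_one, Real.norm_of_nonneg (by positivity)] at hs
  have h2 : C * ‖c.τ (π s).2‖ ≤ 1 / 2 := by
    rw [lt_div_iff₀ (by positivity)] at hs'
    linarith
  have h3 : x s - y s = ((x s - R (π s).1 ((π s).2, x s)) - (y s - R (π s).1 ((π s).2, y s))) +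
      (R (π s).1 ((π s).2, x s) - R (π s).1 ((π s).2, y s)) := by abel
  have h4 := norm_add_le ((x s - R (π s).1 ((π s).2, x s)) - (y s - R (π s).1 ((π s).2, y s)))
    (R (π s).1 ((π s).2, x s) - R (π s).1 ((π s).2, y s))
  rw [← h3] at h4
  nlinarith [norm_nonneg (x s - y s)]

/-- Picard iterates -/
def it (R : κ → ℂ × E → E) : ℕ → κ → ℂ × E → E
  | 0 => fun _ x => x.2
  | n + 1 => fun k x => x.2 + R k (x.1, it R n k x)

theorem tR {R : κ → ℂ × E → E}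
    (h1 : (fun x : (κ × ℂ) × E => R x.1.1 (x.1.2, x.2)) =O[c.F ×ˢ 𝓝 (0 : E)]
      fun x => ‖c.τ x.1.2‖ ^ 1) :
    Tendsto (fun x : (κ × ℂ) × E => R x.1.1 (x.1.2, x.2)) (c.F ×ˢ 𝓝 (0 : E)) (𝓝 0) := by
  refine h1.trans_tendsto ?_
  simpa using ((c.tF.comp tendsto_fst).norm :
    Tendsto (fun x : (κ × ℂ) × E => ‖c.τ x.1.2‖) (c.F ×ˢ 𝓝 (0 : E)) _)

theorem it_cf {R : κ → ℂ × E → E} (hR : CF c R)
    (h1 : (fun x : (κ × ℂ) × E => R x.1.1 (x.1.2, x.2)) =O[c.F ×ˢ 𝓝 (0 : E)]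
      fun x => ‖c.τ x.1.2‖ ^ 1) (n : ℕ) : CF c (it R n) ∧
      Tendsto (fun x : (κ × ℂ) × E => it R n x.1.1 (x.1.2, x.2)) (c.F ×ˢ 𝓝 (0 : E)) (𝓝 0) := by
  have h0 : CF c (fun (_ : κ) (x : ℂ × E) => x.2) :=
    CF.of_ana (K := fun p : ℂ × E => p.2) analyticAt_snd
  induction n with
  | zero => exact ⟨h0, tendsto_snd⟩
  | succ n ih =>
    refine ⟨h0.add (hR.comp ih.1 ih.2), ?_⟩
    have := tendsto_snd.add ((tR h1).comp (tendsto_fst.prodMk ih.2))
    rw [add_zero] at this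
    exact this

theorem CF.fix {R : κ → ℂ × E → E} (hR : CF c R)
    (h1 : (fun x : (κ × ℂ) × E => R x.1.1 (x.1.2, x.2)) =O[c.F ×ˢ 𝓝 (0 : E)]
      fun x => ‖c.τ x.1.2‖ ^ 1) :
    ∃ ψ : κ → ℂ × E → E, CF c ψ ∧
      Tendsto (fun x : (κ × ℂ) × E => ψ x.1.1 (x.1.2, x.2)) (c.F ×ˢ 𝓝 (0 : E)) (𝓝 0) ∧
      ∀ᶠ x in c.F ×ˢ 𝓝 (0 : E),
        ψ x.1.1 (x.1.2, x.2) = x.2 + R x.1.1 (x.1.2, ψ x.1.1 (x.1.2, x.2)) := by
  obtain ⟨r₁, hr₁, C, hC, h2⟩ :=
    unif_ball (G := fun (q : κ × ℂ) y => R q.1 (q.2, y)) (b := fun q : κ × ℂ => ‖c.τ q.2‖ ^ 1)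
      hR.sl h1
  obtain ⟨r₂, hr₂, h3⟩ := ev_ball hR.hol
  set ρ := min r₁ r₂ with hρ
  have hρ0 : 0 < ρ := lt_min hr₁ hr₂
  have h4 : ∀ᶠ q in c.F, C * ‖c.τ q.2‖ < min (1 / 2) (ρ / 4) := by
    have := c.tF.norm.const_mul C
    rw [norm_zero, mul_zero] at this
    exact this.eventually (gt_mem_nhds (lt_min (by norm_num) (by positivity)))
  obtain ⟨t₀, ht₀, hg⟩ := c.evF.1 (h2.and (h3.and h4))
  set U : κ → Set (ℂ × E) := fun k => (c.Ω k ∩ c.τ ⁻¹' ball 0 t₀) ×ˢ ball (0 : E) (ρ / 4) with hU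
  have hUo : ∀ k, IsOpen (U k) := fun k =>
    ((c.diff k).continuousOn.isOpen_inter_preimage (c.isOpen k) isOpen_ball).prod isOpen_ball
  have hA : ∀ k, ∀ p ∈ U k, ∀ z ∈ ball (0 : E) ρ, AnalyticAt ℂ (R k) (p.1, z) ∧
      ‖R k (p.1, z)‖ ≤ ρ / 4 ∧ ‖fderiv ℂ (fun y => R k (p.1, y)) z‖ ≤ 1 / 2 := by
    intro k p hp z hz
    obtain ⟨a1, a2, a3⟩ := hg k p.1 hp.1.1 (mem_ball_zero_iff.1 hp.1.2)
    obtain ⟨-, b1, b2⟩ := a1 z (ball_subset_ball (min_le_left _ _) hz)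
    rw [pow_one, norm_norm] at b1 b2
    exact ⟨a2 z (ball_subset_ball (min_le_right _ _) hz),
      b1.trans (a3.le.trans (min_le_right _ _)), b2.trans (a3.le.trans (min_le_left _ _))⟩
  have hL : ∀ k, ∀ p ∈ U k, ∀ y ∈ ball (0 : E) ρ, ∀ z ∈ ball (0 : E) ρ,
      ‖R k (p.1, z) - R k (p.1, y)‖ ≤ 1 / 2 * ‖z - y‖ := fun k p hp y hy z hz =>
    (convex_ball (0 : E) ρ).norm_image_sub_le_of_norm_fderiv_le (𝕜 := ℂ)
      (f := fun y => R k (p.1, y)) (fun z hz => (slice_ana (hA k p hp z hz).1).differentiableAt)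
      (fun z hz => (hA k p hp z hz).2.2) hy hz
  have hb : ∀ k, ∀ p ∈ U k, ∀ n, ‖it R n k p‖ ≤ ρ / 2 := by
    intro k p hp n
    have hp2 : ‖p.2‖ < ρ / 4 := mem_ball_zero_iff.1 hp.2
    induction n with
    | zero => simp only [it]; linarith
    | succ n ih =>
      have := (hA k p hp _ (mem_ball_zero_iff.2 (by linarith : ‖it R n k p‖ < ρ))).2.1
      simp only [it]
      linarith [norm_add_le p.2 (R k (p.1, it R n k p))]
  have hb' : ∀ k, ∀ p ∈ U k, ∀ n, it R n k p ∈ ball (0 : E) ρ := fun k p hp n =>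
    mem_ball_zero_iff.2 (by linarith [hb k p hp n])
  have hd : ∀ k, ∀ p ∈ U k, ∀ n, dist (it R n k p) (it R (n + 1) k p) ≤ (2 * ρ) / 2 / 2 ^ n := by
    intro k p hp n
    induction n with
    | zero =>
      rw [dist_eq_norm]
      linarith [norm_sub_le (it R 0 k p) (it R (0 + 1) k p), hb k p hp 0, hb k p hp (0 + 1)]
    | succ n ih =>
      have := hL k p hp _ (hb' k p hp (n + 1)) _ (hb' k p hp n)
      rw [dist_eq_norm] at ih ⊢
      have e : it R (n + 1) k p - it R (n + 1 + 1) k p =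
          R k (p.1, it R n k p) - R k (p.1, it R (n + 1) k p) := by
        simp only [it]; abel
      rw [e, pow_succ, ← div_div]
      linarith
  set ψ : κ → ℂ × E → E := fun k p => limUnder atTop (fun n => it R n k p) with hψ
  have hlim : ∀ k, ∀ p ∈ U k, Tendsto (fun n => it R n k p) atTop (𝓝 (ψ k p)) := fun k p hp =>
    (cauchySeq_of_le_geometric_two (hd k p hp)).tendsto_limUnder
  have hψb : ∀ k, ∀ p ∈ U k, ψ k p ∈ ball (0 : E) ρ := fun k p hp => by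
    have := le_of_tendsto' (hlim k p hp).norm (hb k p hp)
    exact mem_ball_zero_iff.2 (by linarith)
  have hfix : ∀ k, ∀ p ∈ U k, ψ k p = p.2 + R k (p.1, ψ k p) := fun k p hp => by
    have a1 : Tendsto (fun n => it R (n + 1) k p) atTop (𝓝 (ψ k p)) :=
      (hlim k p hp).comp (tendsto_add_atTop_nat 1)
    have a2 : Tendsto (fun n => p.2 + R k (p.1, it R n k p)) atTop
        (𝓝 (p.2 + R k (p.1, ψ k p))) :=
      ((slice_ana (hA k p hp _ (hψb k p hp)).1).continuousAt.tendsto.comp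
        (hlim k p hp)).const_add _
    exact tendsto_nhds_unique a1 a2
  have hita : ∀ k n, ∀ p ∈ U k, AnalyticAt ℂ (it R n k) p := by
    intro k n p hp
    induction n with
    | zero => exact analyticAt_snd
    | succ n ih =>
      exact analyticAt_snd.add (AnalyticAt.comp (g := R k)
        (f := fun p : ℂ × E => (p.1, it R n k p)) (hA k p hp _ (hb' k p hp n)).1
        (analyticAt_fst.prod ih))
  have hψa : ∀ k, AnalyticOnNhd ℂ (ψ k) (U k) := fun k => by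
    refine R266.SCV.analyticOnNhd_of_tendstoLocallyUniformlyOn (φ := atTop)
      (f := fun n => it R n k) (hUo k) (TendstoUniformlyOn.tendstoLocallyUniformlyOn ?_)
      (Eventually.of_forall fun n p hp => (hita k n p hp).differentiableAt.differentiableWithinAt)
    rw [Metric.tendstoUniformlyOn_iff]
    intro e he
    have : Tendsto (fun n : ℕ => (2 * ρ) / 2 ^ n) atTop (𝓝 0) :=
      tendsto_const_nhds.div_atTop (tendsto_pow_atTop_atTop_of_one_lt one_lt_two)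
    filter_upwards [this.eventually (gt_mem_nhds he)] with n hn p hp
    rw [dist_comm]
    exact (dist_le_of_le_geometric_two_of_tendsto (hd k p hp) (hlim k p hp) n).trans_lt hn
  have hev : ∀ᶠ x in c.F ×ˢ 𝓝 (0 : E), (x.1.2, x.2) ∈ U x.1.1 :=
    ev_of_ball (by positivity : 0 < ρ / 4)
      (c.evF.2 ⟨t₀, ht₀, fun k w hw ht z hz => ⟨⟨hw, mem_ball_zero_iff.2 ht⟩, hz⟩⟩)
  have hfe : ∀ᶠ x in c.F ×ˢ 𝓝 (0 : E),
      ψ x.1.1 (x.1.2, x.2) = x.2 + R x.1.1 (x.1.2, ψ x.1.1 (x.1.2, x.2)) :=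
    hev.mono fun x hx => hfix _ _ hx
  have hRψ : (fun x : (κ × ℂ) × E => R x.1.1 (x.1.2, ψ x.1.1 (x.1.2, x.2)))
      =O[c.F ×ˢ 𝓝 (0 : E)] fun x => ‖c.τ x.1.2‖ ^ 1 := by
    refine IsBigO.of_bound C ?_
    filter_upwards [hev, tendsto_fst.eventually h2] with x hx hx2
    exact (hx2 _ (ball_subset_ball (min_le_left _ _) (hψb _ _ hx))).2.1
  have ht0 : Tendsto (fun x : (κ × ℂ) × E => ψ x.1.1 (x.1.2, x.2)) (c.F ×ˢ 𝓝 (0 : E)) (𝓝 0) := by
    have a1 : Tendsto (fun x : (κ × ℂ) × E => R x.1.1 (x.1.2, ψ x.1.1 (x.1.2, x.2)))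
        (c.F ×ˢ 𝓝 (0 : E)) (𝓝 0) := by
      refine hRψ.trans_tendsto ?_
      simpa using ((c.tF.comp tendsto_fst).norm :
        Tendsto (fun x : (κ × ℂ) × E => ‖c.τ x.1.2‖) (c.F ×ˢ 𝓝 (0 : E)) _)
    have := tendsto_snd.add a1
    rw [add_zero] at this
    exact this.congr' (hfe.mono fun x hx => hx.symm)
  have happ : ∀ n, (fun x : (κ × ℂ) × E => ψ x.1.1 (x.1.2, x.2) - it R n x.1.1 (x.1.2, x.2))
      =O[c.F ×ˢ 𝓝 (0 : E)] fun x => ‖c.τ x.1.2‖ ^ (n + 1) := by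
    intro n
    induction n with
    | zero =>
      refine hRψ.congr' ?_ EventuallyEq.rfl
      filter_upwards [hfe] with x hx
      simp only [it]
      exact eq_sub_of_add_eq' hx.symm
    | succ n ih =>
      have a1 := (hR.lipt h1 tendsto_fst ht0 (it_cf hR h1 n).2).trans
        ((isBigO_refl _ _).mul ih.norm_left)
      refine a1.congr' ?_ (Eventually.of_forall fun x => by ring)
      filter_upwards [hfe] with x hx
      simp only [it]
      nth_rewrite 2 [hx]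
      abel
  refine ⟨ψ, ⟨hev.mono fun x hx => hψa _ _ hx, ?_, fun N => ?_⟩, ht0, hfe⟩
  · obtain ⟨ν, a1⟩ := hR.jump
    have a2 := hR.stab h1 (c.π₁.comp tendsto_fst) (ht0.comp (tJ₁ c)) (ht0.comp (tJ₂ c))
    have a3 := a1.comp_tendsto (tendsto_fst.prodMk (ht0.comp (tJ₂ c)))
    refine ⟨ν, a2.trans (a3.congr' ?_ EventuallyEq.rfl)⟩
    filter_upwards [(tJ₁ c).eventually hfe, (tJ₂ c).eventually hfe] with x hx hx'
    simp only [Function.comp] at hx hx' ⊢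
    rw [sub_eq_of_eq_add hx]
    nth_rewrite 3 [hx']
    abel
  · obtain ⟨K, hK, a1⟩ := (it_cf hR h1 N).1.asy N
    refine ⟨K, hK, (((happ N).trans (c.powO tendsto_fst (Nat.le_succ N))).add a1).congr_left
      fun x => ?_⟩
    abel

end Crest.Agent.N250.Hn
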