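import Crest.Agent.N250.Hn.Pt

/-! Hensel induction on the free coordinates: a formal common zero of a family in the class `CF`
is realised by a curve of class `CC` along which all members are flat. -/

set_option autoImplicit false
set_option linter.unusedSectionVars false

open Filter Topology Asymptotics Metric Set

noncomputable section

namespace Crest.Agent.N250.Hn

variable {κ : Type*} {c : Cov κ} {ι : Type*} [Fintype ι] [DecidableEq ι]

theorem P_P (S : Finset ι) (z : ι → ℂ) : P S (P S z) = P S z := by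
  ext i; by_cases h : i ∈ S <;> simp [P_apply, h]

theorem P_erase {S : Finset ι} {i : ι} (hi : i ∈ S) (z : ι → ℂ) :
    P S z = P (S.erase i) z + z i • (Pi.single i (1 : ℂ) : ι → ℂ) := by
  ext j
  by_cases h : j = i
  · subst h; simp [P_apply, hi]
  · simp [P_apply, h]

theorem P_erase_P (S : Finset ι) (i : ι) (z : ι → ℂ) :
    P (S.erase i) (P S z) = P (S.erase i) z := by
  ext j
  by_cases h : j ∈ S <;> simp [P_apply, h]

/-- the pairing of a gradient in the directions of `S` with a vector -/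
def Bl (S : Finset ι) : (S → ℂ) →L[ℂ] (ι → ℂ) →L[ℂ] ℂ :=
  ∑ j : S, (ContinuousLinearMap.proj j : (S → ℂ) →L[ℂ] ℂ).smulRight
    (ContinuousLinearMap.proj j.1 : (ι → ℂ) →L[ℂ] ℂ)

theorem Bl_apply (S : Finset ι) (u : S → ℂ) (y : ι → ℂ) : Bl S u y = ∑ j : S, u j * y j := by
  simp [Bl]

theorem Bl_P (S : Finset ι) (u : S → ℂ) (y : ι → ℂ) : Bl S u (P S y) = Bl S u y := by
  simp [Bl_apply, P_apply]

theorem Bl_single (S : Finset ι) (u : S → ℂ) (j : S) : Bl S u (Pi.single j.1 1) = u j := by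
  rw [Bl_apply, Finset.sum_eq_single j]
  · simp
  · intro b _ hb
    have : (b : ι) ≠ j := fun h => hb (Subtype.ext h)
    simp [this]
  · simp

/-- the gradient in the directions of `S` -/
def gr (S : Finset ι) : ((ι → ℂ) →L[ℂ] ℂ) →L[ℂ] (S → ℂ) :=
  ContinuousLinearMap.pi fun j => ContinuousLinearMap.apply ℂ ℂ (Pi.single j.1 1 : ι → ℂ)

theorem Bl_gr (S : Finset ι) (L : (ι → ℂ) →L[ℂ] ℂ) (y : ι → ℂ) :
    Bl S (gr S L) y = L (P S y) := by
  rw [Bl_apply, P_eq_sum, map_sum, ← Finset.sum_coe_sort S]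
  refine Finset.sum_congr rfl fun j _ => ?_
  simp [gr, mul_comm]

theorem BlO {β : Type*} {l : Filter β} (S : Finset ι) {u : β → S → ℂ} {y : β → ι → ℂ}
    {a b : β → ℝ} (hu : u =O[l] a) (hy : y =O[l] b) :
    (fun s => Bl S (u s) (y s)) =O[l] fun s => a s * b s := by
  refine IsBigO.trans (IsBigO.of_bound ‖Bl S‖ (Eventually.of_forall fun s => ?_))
    (hu.norm_left.mul hy.norm_left)
  rw [norm_mul, norm_norm, norm_norm, ← mul_assoc]
  exact (Bl S).le_opNorm₂ _ _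

/-- the rescaled equation is linear up to `O(t)` -/
theorem lin {S : Finset ι} {p : ℕ → ℂ → ι → ℂ} (hp : FP c p) (hS : ∀ N t, P S (p N t) = p N t)
    {g : κ → ℂ × (ι → ℂ) → ℂ} (hg : CF c g) (hv : Van c g p) {ν m : ℕ} {u : S → ℂ}
    (hm : ν + 1 ≤ m)
    (hu : ∀ N, ν + 1 ≤ N → (fun q : κ × ℂ => gr S (Dz (g q.1) (q.2, p N (c.τ q.2))) -
      c.τ q.2 ^ ν • u) =O[c.F] fun q => ‖c.τ q.2‖ ^ (ν + 1)) :
    (fun x : (κ × ℂ) × (ι → ℂ) =>
      g x.1.1 (x.1.2, p (m + 1) (c.τ x.1.2) + c.τ x.1.2 ^ m • P S x.2) -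
        c.τ x.1.2 ^ (m + ν) • Bl S u x.2) =O[c.F ×ˢ 𝓝 0] fun x => ‖c.τ x.1.2‖ ^ (m + ν + 1) := by
  set l : Filter ((κ × ℂ) × (ι → ℂ)) := c.F ×ˢ 𝓝 0 with hl
  have hf : Tendsto Prod.fst l c.F := tendsto_fst
  have hP : (fun x : (κ × ℂ) × (ι → ℂ) => P S x.2) =O[l] fun x => ‖c.τ x.1.2‖ ^ 0 := by
    simpa using (((P S).continuous.tendsto 0).comp (tendsto_snd : Tendsto Prod.snd l _)).isBigO_one ℝ
  have h1 := smulO (π := Prod.fst) m hP
  have h2 := (hp.coh₂ (le_refl (m + 1)) (by omega : m + 1 ≤ m + ν + 1)).comp_tendsto hf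
  have hδ : (fun x : (κ × ℂ) × (ι → ℂ) => p (m + 1) (c.τ x.1.2) + c.τ x.1.2 ^ m • P S x.2 -
      p (m + ν + 1) (c.τ x.1.2)) =O[l] fun x => ‖c.τ x.1.2‖ ^ m := by
    refine (h1.add (h2.trans (c.powO hf (Nat.le_succ m)))).congr_left fun x => ?_
    simp only [Function.comp]; abel
  have hx : Tendsto (fun x : (κ × ℂ) × (ι → ℂ) =>
      p (m + 1) (c.τ x.1.2) + c.τ x.1.2 ^ m • P S x.2) l (𝓝 0) := by
    have := ((hp.tend (m + 1)).comp hf).add
      ((h1.trans (c.powO hf (by omega : 0 + 1 ≤ m + 0))).trans_tendsto ((tpow c 0).comp hf))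
    rw [add_zero] at this
    exact this
  have h3 := tayO (G := fun (q : κ × ℂ) y => g q.1 (q.2, y)) (b := fun _ => 1) hg.sl hg.bdd hf hx
    ((hp.tend (m + ν + 1)).comp hf)
  have h4 := h3.trans (((isBigO_refl (fun _ => (1 : ℝ)) l).mul (hδ.norm_left.pow 2)).trans
    ((c.powO hf (by omega : m + ν + 1 ≤ m * 2)).congr_left fun x => by rw [one_mul, pow_mul]))
  have h5 := (hv (m + ν + 1)).comp_tendsto hf
  have h6 := (BlO S ((hu (m + ν + 1) (by omega)).comp_tendsto hf) hδ).congr_right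
    (g₂ := fun x => ‖c.τ x.1.2‖ ^ (m + ν + 1)) fun x => by simp only [Function.comp]; ring
  have h7 := (smulO (π := Prod.fst) ν (((Bl S u).isBigO_comp _ _).trans h2)).congr_right
    (g₂ := fun x => ‖c.τ x.1.2‖ ^ (m + ν + 1)) fun x => by ring
  refine (((h4.add h5).add h6).add h7).congr_left fun x => ?_
  simp only [Function.comp, map_sub, map_add, map_smul, sub_apply,
    smul_apply, Bl_gr, Bl_P, hS, smul_eq_mul, Dz]
  ring

/-- iterated partial derivatives -/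
def pdL (l : List ι) (g : κ → ℂ × (ι → ℂ) → ℂ) : κ → ℂ × (ι → ℂ) → ℂ := l.foldr pd g

theorem CF.pdL {g : κ → ℂ × (ι → ℂ) → ℂ} (hg : CF c g) (l : List ι) : CF c (pdL l g) := by
  induction l with
  | nil => exact hg
  | cons i l ih => exact ih.pd i

theorem exists_step {S : Finset ι} {p : ℕ → ℂ → ι → ℂ} {h : κ → ℂ × (ι → ℂ) → ℂ} (hh : CF c h)
    (hv : Van c h p) : ∀ l : List ι, (∀ i ∈ l, i ∈ S) → ¬ Van c (pdL l h) p →
      ∃ g : κ → ℂ × (ι → ℂ) → ℂ, CF c g ∧ Van c g p ∧ ∃ i ∈ S, ¬ Van c (pd i g) p := by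
  intro l
  induction l with
  | nil => exact fun _ h => absurd hv h
  | cons i l ih =>
    intro hl hn
    by_cases h1 : Van c (pdL l h) p
    · exact ⟨_, hh.pdL l, h1, i, hl i (List.mem_cons_self ..), hn⟩
    · exact ih (fun j hj => hl j (List.mem_cons_of_mem _ hj)) h1

/-- elimination of one coordinate -/
theorem elim {S : Finset ι} {p : ℕ → ℂ → ι → ℂ} (hp : FP c p) (hS : ∀ N t, P S (p N t) = p N t)
    {g : κ → ℂ × (ι → ℂ) → ℂ} (hg : CF c g) (hv : Van c g p) {i₀ : ι} (hi₀ : i₀ ∈ S)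
    (hn : ¬ Van c (pd i₀ g) p) (M : ℕ) :
    ∃ i ∈ S, ∃ (Φ : κ → ℂ × (ι → ℂ) → ι → ℂ) (p' : ℕ → ℂ → ι → ℂ), CF c Φ ∧
      (fun x : (κ × ℂ) × (ι → ℂ) => Φ x.1.1 (x.1.2, x.2) - p M (c.τ x.1.2)) =O[c.F ×ˢ 𝓝 0]
        (fun x => ‖c.τ x.1.2‖ ^ M) ∧
      Tendsto (fun x : (κ × ℂ) × (ι → ℂ) => Φ x.1.1 (x.1.2, x.2)) (c.F ×ˢ 𝓝 0) (𝓝 0) ∧
      FP c p' ∧ (∀ N t, P (S.erase i) (p' N t) = p' N t) ∧
      ∀ N, ∃ N', N ≤ N' ∧ ∃ N'', N ≤ N'' ∧
        (fun q : κ × ℂ => Φ q.1 (q.2, p' N' (c.τ q.2)) - p N'' (c.τ q.2)) =O[c.F]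
          fun q => ‖c.τ q.2‖ ^ N := by
  have hG : CF c (fun k x => gr S (Dz (g k) x)) := hg.dz.clm (gr S)
  have hGn : ¬ Van c (fun k x => gr S (Dz (g k) x)) p := fun h => hn fun N =>
    (IsBigO.of_bound 1 (Eventually.of_forall fun q => by
      rw [one_mul]
      exact norm_le_pi_norm (gr S (Dz (g q.1) (q.2, p N (c.τ q.2)))) ⟨i₀, hi₀⟩)).trans (h N)
  obtain ⟨ν, u, hu0, hu⟩ := order hG hp hGn
  obtain ⟨i, hi⟩ : ∃ i : S, u i ≠ 0 := by
    by_contra h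
    push Not at h
    exact hu0 (funext h)
  set m := max M (ν + 1) with hm
  have hlin := lin hp hS hg hv (le_max_right M (ν + 1)) hu
  rw [← hm] at hlin
  set l : Filter ((κ × ℂ) × (ι → ℂ)) := c.F ×ˢ 𝓝 0 with hl
  have hf : Tendsto Prod.fst l c.F := tendsto_fst
  have hs : Tendsto Prod.snd l (𝓝 0) := tendsto_snd
  -- the substitution
  set σ : κ → ℂ × (ι → ℂ) → ι → ℂ :=
    fun _ x => p (m + 1) (c.τ x.1) + c.τ x.1 ^ m • P S x.2 with hσ
  have hσc : CF c σ := CF.of_ana (K := fun x => p (m + 1) x.1 + x.1 ^ m • P S x.2)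
    ((AnalyticAt.comp (g := p (m + 1)) (f := fun x : ℂ × (ι → ℂ) => x.1) (hp.ana _)
      analyticAt_fst).add ((analyticAt_fst.pow m).smul (((P S).analyticAt _).comp analyticAt_snd)))
  have hP : (fun x : (κ × ℂ) × (ι → ℂ) => P S x.2) =O[l] fun x => ‖c.τ x.1.2‖ ^ 0 := by
    simpa using (((P S).continuous.tendsto 0).comp hs).isBigO_one ℝ
  have hσM : (fun x : (κ × ℂ) × (ι → ℂ) => σ x.1.1 (x.1.2, x.2) - p M (c.τ x.1.2)) =O[l]
      fun x => ‖c.τ x.1.2‖ ^ M := by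
    refine (((hp.coh' (by omega : M ≤ m + 1)).comp_tendsto hf).add
      ((smulO (π := Prod.fst) m hP).trans (c.powO hf (by omega : M ≤ m + 0)))).congr_left
      fun x => ?_
    simp only [Function.comp, hσ]; abel
  have hσ0 : Tendsto (fun x : (κ × ℂ) × (ι → ℂ) => σ x.1.1 (x.1.2, x.2)) l (𝓝 0) := by
    have := ((hp.tend (m + 1)).comp hf).add
      (((smulO (π := Prod.fst) m hP).trans (c.powO hf (by omega : 0 + 1 ≤ m + 0))).trans_tendsto
        ((tpow c 0).comp hf))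
    rw [add_zero] at this
    exact this
  have hℓ : (fun x : (κ × ℂ) × (ι → ℂ) => Bl S u x.2) =O[l] fun x => ‖c.τ x.1.2‖ ^ 0 := by
    simpa using (((Bl S u).continuous.tendsto 0).comp hs).isBigO_one ℝ
  have hg1 : CF c (fun k x => (c.τ x.1 ^ (m + ν))⁻¹ • g k (x.1, σ k x)) := by
    refine (hg.comp hσc hσ0).div (m + ν) ?_
    refine ((hlin.trans (c.powO hf (Nat.le_succ _))).add
      (smulO (π := Prod.fst) (m + ν) hℓ)).congr_left fun x => ?_
    simp [hσ]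
  set e : ι → ℂ := -(u i)⁻¹ • (Pi.single i.1 1 : ι → ℂ) with he
  set R : κ → ℂ × (ι → ℂ) → ι → ℂ :=
    fun k x => ((c.τ x.1 ^ (m + ν))⁻¹ • g k (x.1, σ k x) - Bl S u x.2) • e with hR
  have hRc : CF c R :=
    (hg1.sub (CF.of_ana (K := fun x => Bl S u x.2)
      (((Bl S u).analyticAt _).comp analyticAt_snd))).clm ((ContinuousLinearMap.id ℂ ℂ).smulRight e)
  have hR1 : (fun x : (κ × ℂ) × (ι → ℂ) => R x.1.1 (x.1.2, x.2)) =O[l]
      fun x => ‖c.τ x.1.2‖ ^ 1 := by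
    have h1 : (fun x : (κ × ℂ) × (ι → ℂ) => (c.τ x.1.2 ^ (m + ν))⁻¹ •
        g x.1.1 (x.1.2, σ x.1.1 (x.1.2, x.2)) - Bl S u x.2) =O[l] fun x => ‖c.τ x.1.2‖ ^ 1 := by
      refine cancelO hf (m := m + ν) (hlin.congr' ?_ EventuallyEq.rfl)
      filter_upwards [hf.eventually c.neF] with x hx
      simp only [hσ, smul_sub, smul_smul, mul_inv_cancel₀ (pow_ne_zero _ hx), one_smul]
    exact (((ContinuousLinearMap.id ℂ ℂ).smulRight e).isBigO_comp _ _).trans h1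
  obtain ⟨ψ, hψ, hψ0, hψe⟩ := hRc.fix hR1
  set A : (ι → ℂ) →L[ℂ] (ι → ℂ) :=
    P (S.erase i) + ((Bl S u).comp (P (S.erase i))).smulRight e with hA
  have hAc : CF c (fun (_ : κ) (x : ℂ × (ι → ℂ)) => A x.2) :=
    CF.of_ana (K := fun x => A x.2) ((A.analyticAt _).comp analyticAt_snd)
  have hA0 : Tendsto (fun x : (κ × ℂ) × (ι → ℂ) => A x.2) l (𝓝 0) :=
    (A.continuous.tendsto' 0 0 (map_zero _)).comp hs
  have hΨ0 : Tendsto (fun x : (κ × ℂ) × (ι → ℂ) => ψ x.1.1 (x.1.2, A x.2)) l (𝓝 0) :=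
    hψ0.comp (hf.prodMk hA0)
  -- the new formal point
  have hq : ∀ N, ∃ r : ℂ → ι → ℂ, AnalyticAt ℂ r 0 ∧ ∀ᶠ q in c.F,
      p (N + m + 1) (c.τ q.2) - p (m + 1) (c.τ q.2) = c.τ q.2 ^ m • r (c.τ q.2) := fun N =>
    div1 ((hp.ana _).sub (hp.ana _)) m (hp.coh₂ (by omega) (by omega))
  choose r hr hre using hq
  have hr0 : ∀ N, r N 0 = 0 := fun N => by
    have h1 : (fun q : κ × ℂ => r N (c.τ q.2)) =O[c.F] fun q => ‖c.τ q.2‖ ^ 1 :=
      cancelO tendsto_id (m := m) ((hp.coh' (by omega : m + 1 ≤ N + m + 1)).congr' (hre N)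
        EventuallyEq.rfl)
    exact tendsto_nhds_unique ((hr N).continuousAt.tendsto.comp c.tF)
      (h1.trans_tendsto (tpow c 0))
  have hrF : FP c r := by
    refine ⟨hr, hr0, fun N => cancelO tendsto_id (m := m)
      ((hp.coh₂ (M := m + N) (N := N + 1 + m + 1) (N' := N + m + 1) (by omega)
        (by omega)).congr' ?_ EventuallyEq.rfl)⟩
    filter_upwards [hre N, hre (N + 1)] with q h1 h2
    simp only [id, smul_sub, ← h1, ← h2]
    abel
  have hcl : ∀ T : Finset ι, FP c (fun N t => P T (r N t)) := fun T =>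
    ⟨fun N => ((P T).analyticAt _).comp (hr N), fun N => by simp [hr0],
      fun N => (((P T).isBigO_comp _ _).trans (hrF.coh N)).congr_left fun q => by simp⟩
  refine ⟨i, i.2, fun k x => σ k (x.1, ψ k (x.1, A x.2)), fun N t => P (S.erase i) (r N t),
    hσc.comp (hψ.comp hAc hA0) hΨ0, hσM.comp_tendsto (hf.prodMk hΨ0), hσ0.comp (hf.prodMk hΨ0),
    hcl _, fun N t => P_P _ _, fun N => ⟨N + ν, by omega, N + ν + m + 1, by omega, ?_⟩⟩
  have hx0 := (hcl S).tend (N + ν)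
  have ha0 : Tendsto (fun q : κ × ℂ => A (P (S.erase i) (r (N + ν) (c.τ q.2)))) c.F (𝓝 0) :=
    (A.continuous.tendsto' 0 0 (map_zero _)).comp ((hcl _).tend (N + ν))
  have hy0 := hψ0.comp (tendsto_id.prodMk ha0)
  have hσx : ∀ᶠ q in c.F, σ q.1 (q.2, P S (r (N + ν) (c.τ q.2))) =
      p (N + ν + m + 1) (c.τ q.2) := by
    filter_upwards [hre (N + ν)] with q hq
    simp only [hσ, P_P]
    rw [← map_smul, ← hq, map_sub, hS, hS]
    abel
  have h1 : (fun q : κ × ℂ => (c.τ q.2 ^ (m + ν))⁻¹ • g q.1 (q.2, p (N + ν + m + 1) (c.τ q.2)))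
      =O[c.F] fun q => ‖c.τ q.2‖ ^ N := by
    refine cancelO tendsto_id (m := m + ν)
      ((hv.le (by omega : m + ν + N ≤ N + ν + m + 1)).congr' ?_ EventuallyEq.rfl)
    filter_upwards [c.neF] with q hq
    simp only [id, smul_smul, mul_inv_cancel₀ (pow_ne_zero _ hq), one_smul]
  have h2 := (hRc.stab hR1 tendsto_id hy0 hx0).trans
    (((((ContinuousLinearMap.id ℂ ℂ).smulRight e).isBigO_comp _ _).trans h1).congr' (f₂ := _) ?_
      EventuallyEq.rfl)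
  · refine ((hσc.lip tendsto_id hy0 hx0).trans h2).congr' ?_ EventuallyEq.rfl
    filter_upwards [hσx] with q hq
    simp only [id, Function.comp, hq]
  · filter_upwards [hσx, (tendsto_id.prodMk ha0).eventually hψe] with q hq hq'
    simp only [id, Function.comp] at hq' ⊢
    rw [sub_eq_of_eq_add hq']
    simp only [hR, hq, hA, add_apply, ContinuousLinearMap.smulRight_apply,
      ContinuousLinearMap.comp_apply, ContinuousLinearMap.id_apply, P_P]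
    rw [P_erase i.2 (r (N + ν) (c.τ q.2)), map_add, map_smul, Bl_single]
    have h3 : (Pi.single i.1 1 : ι → ℂ) = -(u i) • e := by
      rw [he, smul_smul, neg_mul_neg, mul_inv_cancel₀ hi, one_smul]
    rw [h3, smul_eq_mul]
    module

theorem hensel_aux {J : Type*} (n : ℕ) : ∀ (S : Finset ι), S.card = n →
    ∀ (H : J → κ → ℂ × (ι → ℂ) → ℂ) (p : ℕ → ℂ → ι → ℂ), (∀ j, CF c (H j)) → FP c p →
      (∀ N t, P S (p N t) = p N t) → (∀ j, Van c (H j) p) → ∀ M : ℕ,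
      ∃ Z : κ → ℂ → ι → ℂ, CC c Z ∧ Tendsto (fun q : κ × ℂ => Z q.1 q.2) c.F (𝓝 0) ∧
        (fun q : κ × ℂ => Z q.1 q.2 - p M (c.τ q.2)) =O[c.F] (fun q => ‖c.τ q.2‖ ^ M) ∧
        ∀ j N, (fun q : κ × ℂ => H j q.1 (q.2, Z q.1 q.2)) =O[c.F] fun q => ‖c.τ q.2‖ ^ N := by
  induction n using Nat.strong_induction_on with
  | _ n ih =>
    intro S hn H p hH hp hS hv M
    by_cases hA : ∀ j (l : List ι), (∀ i ∈ l, i ∈ S) → Van c (pdL l (H j)) p
    · refine ⟨fun _ w => p M (c.τ w), CC.of_ana (hp.ana M), hp.tend M,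
        by simp only [sub_self]; exact isBigO_zero _ _, fun j N => ?_⟩
      refine flatA hp hS (D := {g | ∃ j, ∃ l : List ι, (∀ i ∈ l, i ∈ S) ∧ g = pdL l (H j)}) ?_ M N
        (H j) ⟨j, [], by simp, rfl⟩
      rintro g ⟨j, l, hl, rfl⟩
      refine ⟨(hH j).pdL l, hA j l hl, fun i hi => ⟨j, i :: l, fun a ha => ?_, rfl⟩⟩
      rcases List.mem_cons.1 ha with rfl | ha
      exacts [hi, hl a ha]
    · push Not at hA
      obtain ⟨j₀, l, hl, hl'⟩ := hA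
      obtain ⟨g, hg, hgv, i₀, hi₀, hgn⟩ := exists_step (hH j₀) (hv j₀) l hl hl'
      obtain ⟨i, hi, Φ, p', hΦ, hΦM, hΦ0, hp', hS', hap⟩ := elim hp hS hg hgv hi₀ hgn M
      obtain ⟨Z, hZ, hZ0, -, hZv⟩ := ih _ (hn ▸ Finset.card_erase_lt_of_mem hi) (S.erase i) rfl
        (fun j k x => H j k (x.1, Φ k x)) p' (fun j => (hH j).comp hΦ hΦ0) hp' hS' (fun j => by
          refine van_of ((hH j).comp hΦ hΦ0) hp' fun N => ?_
          obtain ⟨N', h1, N'', h2, h3⟩ := hap N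
          refine ⟨N', h1, ((((hH j).lip tendsto_id (hΦ0.comp (tendsto_id.prodMk (hp'.tend N')))
            (hp.tend N'')).trans h3).add ((hv j).le h2)).congr_left fun q => ?_⟩
          simp) 0
      exact ⟨fun k w => Φ k (w, Z k w), hΦ.along hZ hZ0, hΦ0.comp (tendsto_id.prodMk hZ0),
        hΦM.comp_tendsto (tendsto_id.prodMk hZ0), hZv⟩

/-- **Theorem T.** -/
theorem hensel {J : Type*} {H : J → κ → ℂ × (ι → ℂ) → ℂ} {p : ℕ → ℂ → ι → ℂ}
    (hH : ∀ j, CF c (H j)) (hp : FP c p) (hv : ∀ j, Van c (H j) p) (M : ℕ) :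
    ∃ Z : κ → ℂ → ι → ℂ, CC c Z ∧ Tendsto (fun q : κ × ℂ => Z q.1 q.2) c.F (𝓝 0) ∧
      (fun q : κ × ℂ => Z q.1 q.2 - p M (c.τ q.2)) =O[c.F] (fun q => ‖c.τ q.2‖ ^ M) ∧
      ∀ j N, (fun q : κ × ℂ => H j q.1 (q.2, Z q.1 q.2)) =O[c.F] fun q => ‖c.τ q.2‖ ^ N :=
  hensel_aux _ Finset.univ rfl H p hH hp (fun N t => by ext i; simp [P_apply]) hv M

/-- comparison of the values along the curve: if the gradient is flat along `Z`, changing the
piece of `Z` costs `t ^ N ε + (t ^ (-ν) ε) ^ 2` -/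
theorem quad {E V : Type*} [NormedAddCommGroup E] [NormedSpace ℂ E] [FiniteDimensional ℂ E]
    [CompleteSpace E] [NormedAddCommGroup V] [NormedSpace ℂ V] [CompleteSpace V]
    {f : κ → ℂ × E → V} (hf : CF c f) {Z : κ → ℂ → E} (hZ : CC c Z)
    (h0 : Tendsto (fun q : κ × ℂ => Z q.1 q.2) c.F (𝓝 0)) :
    (fun q : κ × κ × ℂ => f q.1 (q.2.2, Z q.2.1 q.2.2) - f q.1 (q.2.2, Z q.1 q.2.2) -
      Dz (f q.1) (q.2.2, Z q.1 q.2.2) (Z q.2.1 q.2.2 - Z q.1 q.2.2)) =O[c.J]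
      (fun q => ‖Z q.2.1 q.2.2 - Z q.1 q.2.2‖ ^ 2) ∧
    ((∀ N, (fun q : κ × ℂ => Dz (f q.1) (q.2, Z q.1 q.2)) =O[c.F] fun q => ‖c.τ q.2‖ ^ N) →
      ∃ ν, ∀ N, (fun q : κ × κ × ℂ => f q.1 (q.2.2, Z q.2.1 q.2.2) - f q.1 (q.2.2, Z q.1 q.2.2))
        =O[c.J] fun q => ‖c.τ q.2.2‖ ^ N * |c.ε q.1 q.2.1 q.2.2| + c.g ν q ^ 2) := by
  have h1 := tayO (G := fun (q : κ × ℂ) y => f q.1 (q.2, y)) (b := fun _ => 1) hf.sl hf.bdd c.π₁
    (h0.comp c.π₂) (h0.comp c.π₁)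
  have h2 := h1.congr_right fun q => one_mul _
  refine ⟨h2, fun hD => ?_⟩
  obtain ⟨ν, h3⟩ := hZ.jump
  have h3' : (fun q : κ × κ × ℂ => Z q.2.1 q.2.2 - Z q.1 q.2.2) =O[c.J] c.g ν :=
    h3.neg_left.congr_left fun q => neg_sub _ _
  refine ⟨ν, fun N => ?_⟩
  have h4 : (fun q : κ × κ × ℂ => Dz (f q.1) (q.2.2, Z q.1 q.2.2) (Z q.2.1 q.2.2 - Z q.1 q.2.2))
      =O[c.J] fun q => ‖c.τ q.2.2‖ ^ N * |c.ε q.1 q.2.1 q.2.2| := by
    refine IsBigO.trans (IsBigO.of_bound 1 (Eventually.of_forall fun q => ?_))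
      (((((hD (N + ν)).comp_tendsto c.π₁).norm_left.mul h3'.norm_left).norm_right).congr'
        EventuallyEq.rfl ?_)
    · rw [one_mul, norm_mul, norm_norm, norm_norm]
      exact ContinuousLinearMap.le_opNorm _ _
    · filter_upwards [c.π₁.eventually c.neF] with q hq
      have := norm_pos_iff.2 hq
      simp only [Function.comp, Cov.g, norm_mul, norm_pow, norm_inv, Real.norm_eq_abs, abs_norm,
        pow_add, inv_pow]
      field_simp
  have h5 := h2.trans (h3'.norm_left.pow 2)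
  obtain ⟨C, hC, h4⟩ := h4.exists_pos
  obtain ⟨C', hC', h5⟩ := h5.exists_pos
  refine IsBigO.of_bound (C + C') ?_
  filter_upwards [h4.bound, h5.bound] with q a1 a2
  rw [Real.norm_of_nonneg (by positivity)] at a1 a2 ⊢
  have a3 := norm_add_le (f q.1 (q.2.2, Z q.2.1 q.2.2) - f q.1 (q.2.2, Z q.1 q.2.2) -
      Dz (f q.1) (q.2.2, Z q.1 q.2.2) (Z q.2.1 q.2.2 - Z q.1 q.2.2))
    (Dz (f q.1) (q.2.2, Z q.1 q.2.2) (Z q.2.1 q.2.2 - Z q.1 q.2.2))
  rw [sub_add_cancel] at a3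
  have a4 : 0 ≤ ‖c.τ q.2.2‖ ^ N * |c.ε q.1 q.2.1 q.2.2| := by positivity
  have a5 : 0 ≤ c.g ν q ^ 2 := by positivity
  change ‖f q.1 (q.2.2, Z q.2.1 q.2.2) - f q.1 (q.2.2, Z q.1 q.2.2) -
      Dz (f q.1) (q.2.2, Z q.1 q.2.2) (Z q.2.1 q.2.2 - Z q.1 q.2.2)‖ ≤ _ at a2
  nlinarith

end Crest.Agent.N250.Hn
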