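import Crest.Agent.N250.Hn.Fix

/-! Curves of class `CC`, formal points, vanishing at a formal point, order, the Taylor case. -/

set_option autoImplicit false
set_option linter.unusedSectionVars false

open Filter Topology Asymptotics Metric Set

noncomputable section

namespace Crest.Agent.N250.Hn

variable {κ : Type*} {E V : Type*} [NormedAddCommGroup E] [NormedSpace ℂ E]
  [FiniteDimensional ℂ E] [NormedAddCommGroup V] [NormedSpace ℂ V] [CompleteSpace V] {c : Cov κ}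

/-- curves: holomorphic pieces, small jumps, expansions -/
structure CC (c : Cov κ) (Z : κ → ℂ → V) : Prop where
  hol : ∀ᶠ q in c.F, AnalyticAt ℂ (Z q.1) q.2
  jump : ∃ ν : ℕ, (fun q : κ × κ × ℂ => Z q.1 q.2.2 - Z q.2.1 q.2.2) =O[c.J] c.g ν
  asy : ∀ N : ℕ, ∃ K : ℂ → V, AnalyticAt ℂ K 0 ∧
    (fun q : κ × ℂ => Z q.1 q.2 - K (c.τ q.2)) =O[c.F] fun q => ‖c.τ q.2‖ ^ N

theorem CC.cf {Z : κ → ℂ → V} (h : CC c Z) : CF c (fun k (x : ℂ × E) => Z k x.1) where
  hol := (tendsto_fst.eventually h.hol).mono fun x hx =>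
    AnalyticAt.comp (g := Z x.1.1) (f := fun p : ℂ × E => p.1) hx analyticAt_fst
  jump := h.jump.imp fun _ h => h.comp_tendsto tendsto_fst
  asy N := by
    obtain ⟨K, hK, h1⟩ := h.asy N
    exact ⟨fun p => K p.1, AnalyticAt.comp (g := K) (f := fun p : ℂ × E => p.1) hK analyticAt_fst,
      h1.comp_tendsto tendsto_fst⟩

theorem t0 {α : Type*} (l : Filter α) : Tendsto (fun a => (a, (0 : E))) l (l ×ˢ 𝓝 0) :=
  tendsto_id.prodMk tendsto_const_nhds

theorem CF.cc {F : κ → ℂ × E → V} (h : CF c F) : CC c (fun k w => F k (w, 0)) where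
  hol := ((t0 _).eventually h.hol).mono fun q hq =>
    AnalyticAt.comp (g := F q.1) (f := fun w : ℂ => (w, (0 : E))) hq
      (analyticAt_id.prod analyticAt_const)
  jump := h.jump.imp fun _ h => h.comp_tendsto (t0 _)
  asy N := by
    obtain ⟨K, hK, h1⟩ := h.asy N
    exact ⟨fun t => K (t, 0), AnalyticAt.comp (g := K) (f := fun w : ℂ => (w, (0 : E))) hK
      (analyticAt_id.prod analyticAt_const), h1.comp_tendsto (t0 _)⟩

/-- a family evaluated along a curve -/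
theorem CF.along {F : κ → ℂ × E → V} (h : CF c F) {Z : κ → ℂ → E} (hZ : CC c Z)
    (h0 : Tendsto (fun q : κ × ℂ => Z q.1 q.2) c.F (𝓝 0)) : CC c (fun k w => F k (w, Z k w)) :=
  (h.comp (hZ.cf (E := ℂ)) (h0.comp tendsto_fst)).cc

theorem CC.of_ana {K : ℂ → V} (hK : AnalyticAt ℂ K 0) : CC c (fun _ w => K (c.τ w)) :=
  (CF.of_ana (c := c) (K := fun p : ℂ × ℂ => K p.1)
    (AnalyticAt.comp (g := K) (f := fun p : ℂ × ℂ => p.1) hK analyticAt_fst)).cc

theorem div1 {f : ℂ → V} (hf : AnalyticAt ℂ f 0) (m : ℕ)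
    (h : (fun q : κ × ℂ => f (c.τ q.2)) =O[c.F] fun q => ‖c.τ q.2‖ ^ m) :
    ∃ g : ℂ → V, AnalyticAt ℂ g 0 ∧ ∀ᶠ q in c.F, f (c.τ q.2) = c.τ q.2 ^ m • g (c.τ q.2) := by
  obtain ⟨K, hK, h1⟩ := div_pow (E := ℂ) c.tF c.neF m (K := fun p => f p.1)
    (AnalyticAt.comp (g := f) (f := fun p : ℂ × ℂ => p.1) hf analyticAt_fst)
    (h.comp_tendsto tendsto_fst)
  exact ⟨fun t => K (t, 0), AnalyticAt.comp (g := K) (f := fun w : ℂ => (w, (0 : ℂ))) hK
    (analyticAt_id.prod analyticAt_const), ((tT c).comp (t0 _)).eventually h1⟩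

theorem tpow (c : Cov κ) (n : ℕ) :
    Tendsto (fun q : κ × ℂ => ‖c.τ q.2‖ ^ (n + 1)) c.F (𝓝 0) := by
  simpa using c.tF.norm.pow (n + 1)

/-- cancel a power of `t` -/
theorem cancelO {β : Type*} {l : Filter β} {π : β → κ × ℂ} (hπ : Tendsto π l c.F) {f : β → V}
    {m n : ℕ} (h : (fun s => c.τ (π s).2 ^ m • f s) =O[l] fun s => ‖c.τ (π s).2‖ ^ (m + n)) :
    f =O[l] fun s => ‖c.τ (π s).2‖ ^ n := by
  obtain ⟨C, h⟩ := h.bound
  refine IsBigO.of_bound C ?_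
  filter_upwards [h, hπ.eventually c.neF] with s hs hn
  rw [norm_smul, norm_pow, Real.norm_of_nonneg (by positivity), pow_add] at hs
  rw [Real.norm_of_nonneg (by positivity)]
  have : 0 < ‖c.τ (π s).2‖ ^ m := pow_pos (norm_pos_iff.2 hn) m
  nlinarith

theorem smulO {β : Type*} {l : Filter β} {π : β → κ × ℂ} {f : β → V}
    {n : ℕ} (m : ℕ) (h : f =O[l] fun s => ‖c.τ (π s).2‖ ^ n) :
    (fun s => c.τ (π s).2 ^ m • f s) =O[l] fun s => ‖c.τ (π s).2‖ ^ (m + n) := by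
  have h2 : (fun s => c.τ (π s).2 ^ m) =O[l] fun s => ‖c.τ (π s).2‖ ^ m :=
    IsBigO.of_bound 1 (by simp)
  exact (h2.smul h).congr_right fun s => by rw [smul_eq_mul, pow_add]

theorem anaO {f : ℂ → V} (hf : AnalyticAt ℂ f 0) :
    (fun q : κ × ℂ => f (c.τ q.2) - f 0) =O[c.F] fun q => ‖c.τ q.2‖ ^ 1 := by
  have := (hf.differentiableAt.isBigO_sub.comp_tendsto c.tF).norm_right
  simpa [Function.comp_def] using this

/-- a formal point: coherent analytic approximations -/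
structure FP (c : Cov κ) (p : ℕ → ℂ → V) : Prop where
  ana : ∀ N, AnalyticAt ℂ (p N) 0
  zero : ∀ N, p N 0 = 0
  coh : ∀ N, (fun q : κ × ℂ => p (N + 1) (c.τ q.2) - p N (c.τ q.2)) =O[c.F]
    fun q => ‖c.τ q.2‖ ^ N

namespace FP

variable {p : ℕ → ℂ → V}

theorem coh' (h : FP c p) {M N : ℕ} (hMN : M ≤ N) :
    (fun q : κ × ℂ => p N (c.τ q.2) - p M (c.τ q.2)) =O[c.F] fun q => ‖c.τ q.2‖ ^ M := by
  induction N, hMN using Nat.le_induction with
  | base => simpa using isBigO_zero _ _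
  | succ N hMN ih =>
    refine (((h.coh N).trans (c.powO tendsto_id hMN)).add ih).congr_left fun q => ?_
    abel

theorem coh₂ (h : FP c p) {M N N' : ℕ} (h1 : M ≤ N) (h2 : M ≤ N') :
    (fun q : κ × ℂ => p N (c.τ q.2) - p N' (c.τ q.2)) =O[c.F] fun q => ‖c.τ q.2‖ ^ M := by
  refine ((h.coh' h1).sub (h.coh' h2)).congr_left fun q => ?_
  abel

theorem one (h : FP c p) (N : ℕ) :
    (fun q : κ × ℂ => p N (c.τ q.2)) =O[c.F] fun q => ‖c.τ q.2‖ ^ 1 := by
  simpa [h.zero N] using anaO (c := c) (h.ana N)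

theorem tend (h : FP c p) (N : ℕ) : Tendsto (fun q : κ × ℂ => p N (c.τ q.2)) c.F (𝓝 0) :=
  (h.one N).trans_tendsto (tpow c 0)

end FP

/-- the family `h` vanishes at the formal point `p` -/
def Van (c : Cov κ) (h : κ → ℂ × E → V) (p : ℕ → ℂ → E) : Prop :=
  ∀ N, (fun q : κ × ℂ => h q.1 (q.2, p N (c.τ q.2))) =O[c.F] fun q => ‖c.τ q.2‖ ^ N

section

variable [CompleteSpace E] {h : κ → ℂ × E → V} {p : ℕ → ℂ → E}

theorem van_of (hh : CF c h) (hp : FP c p) (H : ∀ N, ∃ N', N ≤ N' ∧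
    (fun q : κ × ℂ => h q.1 (q.2, p N' (c.τ q.2))) =O[c.F] fun q => ‖c.τ q.2‖ ^ N) :
    Van c h p := by
  intro N
  obtain ⟨N', h1, h2⟩ := H N
  refine (h2.sub ((hh.lip tendsto_id (hp.tend N') (hp.tend N)).trans (hp.coh' h1))).congr_left
    fun q => ?_
  simp

theorem Van.le (hv : Van c h p) {M N : ℕ} (hMN : M ≤ N) :
    (fun q : κ × ℂ => h q.1 (q.2, p N (c.τ q.2))) =O[c.F] fun q => ‖c.τ q.2‖ ^ M :=
  (hv N).trans (c.powO tendsto_id hMN)

theorem order (hh : CF c h) (hp : FP c p) (hv : ¬ Van c h p) : ∃ (ν : ℕ) (u : V), u ≠ 0 ∧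
    ∀ N, ν + 1 ≤ N → (fun q : κ × ℂ => h q.1 (q.2, p N (c.τ q.2)) - c.τ q.2 ^ ν • u) =O[c.F]
      fun q => ‖c.τ q.2‖ ^ (ν + 1) := by
  obtain ⟨N₀, h0⟩ := not_forall.1 hv
  obtain ⟨K, hK, h1⟩ := hh.asy N₀
  have h2 := h1.comp_tendsto (tendsto_id.prodMk (hp.tend N₀))
  have hφ : AnalyticAt ℂ (fun t => K (t, p N₀ t)) 0 := by
    refine AnalyticAt.comp (g := K) (f := fun t => (t, p N₀ t)) ?_ (analyticAt_id.prod (hp.ana N₀))
    rw [hp.zero]; exact hK
  have hne : ¬ ∀ᶠ t in 𝓝 (0 : ℂ), K (t, p N₀ t) = 0 := by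
    intro hz
    refine h0 (h2.congr' ?_ EventuallyEq.rfl)
    filter_upwards [c.tF.eventually hz] with q hq
    simp [hq]
  obtain ⟨ν, g, hg, hg0, hφg⟩ := hφ.exists_eventuallyEq_pow_smul_nonzero_iff.2 hne
  have h3 : ∀ᶠ q in c.F, K (c.τ q.2, p N₀ (c.τ q.2)) = c.τ q.2 ^ ν • g (c.τ q.2) := by
    simpa using c.tF.eventually hφg
  have hν : ν + 1 ≤ N₀ := by
    by_contra hlt
    have hgO : (fun q : κ × ℂ => g (c.τ q.2)) =O[c.F] fun q => ‖c.τ q.2‖ ^ 0 := by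
      simpa using (hg.continuousAt.tendsto.comp c.tF).isBigO_one ℝ
    have h4 := (smulO (π := id) ν hgO).trans (c.powO tendsto_id (by omega : N₀ ≤ ν + 0))
    refine h0 ((h2.add h4).congr' ?_ EventuallyEq.rfl)
    filter_upwards [h3] with q hq
    simp [hq]
  refine ⟨ν, g 0, hg0, fun N hN => ?_⟩
  have h5 := (hh.lip tendsto_id (hp.tend N) (hp.tend N₀)).trans (hp.coh₂ hN hν)
  refine ((h5.add (h2.trans (c.powO tendsto_id hν))).add
    (smulO (π := id) ν (anaO hg))).congr' ?_ EventuallyEq.rfl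
  filter_upwards [h3] with q hq
  simp [hq, smul_sub]

end

section Coord

variable {ι : Type*} [Fintype ι] [DecidableEq ι]

/-- projection on the coordinates in `S` -/
def P (S : Finset ι) : (ι → ℂ) →L[ℂ] (ι → ℂ) :=
  ContinuousLinearMap.pi fun i => if i ∈ S then ContinuousLinearMap.proj i else 0

theorem P_apply (S : Finset ι) (z : ι → ℂ) (i : ι) : P S z i = if i ∈ S then z i else 0 := by
  unfold P
  by_cases h : i ∈ S <;> simp [h]

theorem P_eq_sum (S : Finset ι) (z : ι → ℂ) :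
    P S z = ∑ i ∈ S, z i • (Pi.single i (1 : ℂ) : ι → ℂ) := by
  ext j
  simp [P_apply, Finset.sum_apply, Pi.single_apply]

/-- partial derivative -/
def pd (i : ι) (g : κ → ℂ × (ι → ℂ) → ℂ) : κ → ℂ × (ι → ℂ) → ℂ :=
  fun k x => Dz (g k) x (Pi.single i 1)

theorem CF.pd {g : κ → ℂ × (ι → ℂ) → ℂ} (hg : CF c g) (i : ι) : CF c (pd i g) :=
  hg.dz.clm (ContinuousLinearMap.apply ℂ ℂ (Pi.single i 1 : ι → ℂ))

theorem norm_comp_P (L : (ι → ℂ) →L[ℂ] ℂ) (S : Finset ι) :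
    ‖L.comp (P S)‖ ≤ ∑ i ∈ S, ‖L (Pi.single i 1)‖ := by
  refine ContinuousLinearMap.opNorm_le_bound _ (Finset.sum_nonneg fun _ _ => norm_nonneg _)
    fun z => ?_
  rw [ContinuousLinearMap.comp_apply, P_eq_sum, map_sum, Finset.sum_mul]
  refine (norm_sum_le _ _).trans (Finset.sum_le_sum fun i _ => ?_)
  rw [map_smul, norm_smul, mul_comm]
  exact mul_le_mul_of_nonneg_left (norm_le_pi_norm z i) (norm_nonneg _)

/-- the Taylor case: all derivatives vanish at the formal point -/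
theorem flatA {S : Finset ι} {p : ℕ → ℂ → ι → ℂ} (hp : FP c p)
    (hS : ∀ N t, P S (p N t) = p N t) {D : Set (κ → ℂ × (ι → ℂ) → ℂ)}
    (hD : ∀ g ∈ D, CF c g ∧ Van c g p ∧ ∀ i ∈ S, pd i g ∈ D) (M N : ℕ) :
    ∀ g ∈ D, (fun q : κ × ℂ => g q.1 (q.2, p M (c.τ q.2))) =O[c.F] fun q => ‖c.τ q.2‖ ^ N := by
  have hT : Tendsto (fun x : (κ × ℂ) × (ι → ℂ) => (x.1, p N (c.τ x.1.2) + P S x.2))
      (c.F ×ˢ 𝓝 0) (c.F ×ˢ 𝓝 0) := by
    refine tendsto_fst.prodMk ?_
    have := ((hp.tend N).comp tendsto_fst).add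
      (((P S).continuous.tendsto' 0 0 (map_zero _)).comp
        (tendsto_snd : Tendsto (Prod.snd : (κ × ℂ) × (ι → ℂ) → _) (c.F ×ˢ 𝓝 0) _))
    rw [add_zero] at this
    exact this
  have key : ∀ n, ∀ g ∈ D, (fun x : (κ × ℂ) × (ι → ℂ) =>
      g x.1.1 (x.1.2, p N (c.τ x.1.2) + P S x.2)) =O[c.F ×ˢ 𝓝 0]
        fun x => ‖c.τ x.1.2‖ ^ N + ‖x.2‖ ^ n := by
    intro n
    induction n with
    | zero =>
      intro g hg
      refine ((hD g hg).1.bdd.comp_tendsto hT).trans (IsBigO.of_bound 1 ?_)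
      refine Eventually.of_forall fun x => ?_
      rw [Real.norm_of_nonneg (r := ‖c.τ x.1.2‖ ^ N + ‖x.2‖ ^ 0) (by positivity)]
      simp
    | succ n ih =>
      intro g hg
      obtain ⟨h1, h2, h3⟩ := hD g hg
      have h4 := IsBigO.sum (s := S) fun i hi => (ih _ (h3 i hi)).norm_left
      obtain ⟨C, hC, h4⟩ := h4.exists_pos
      obtain ⟨C', hC', h5⟩ := (h2 N).exists_pos
      obtain ⟨r, hr, h6⟩ := ev_ball (h4.bound.and (hT.eventually h1.sl))
      refine IsBigO.of_bound (C + C') (ev_of_ball (lt_min hr one_pos) ?_)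
      filter_upwards [h6, h5.bound] with q hq hq' y hy
      have hy1 : ‖y‖ < r := (mem_ball_zero_iff.1 hy).trans_le (min_le_left _ _)
      have hy2 : ‖y‖ ≤ 1 := ((mem_ball_zero_iff.1 hy).trans_le (min_le_right _ _)).le
      have hsub : ∀ z ∈ closedBall (0 : ι → ℂ) ‖y‖, z ∈ ball (0 : ι → ℂ) r := fun z hz =>
        mem_ball_zero_iff.2 ((mem_closedBall_zero_iff.1 hz).trans_lt hy1)
      have h7 := (convex_closedBall (0 : ι → ℂ) ‖y‖).norm_image_sub_le_of_norm_hasFDerivWithin_le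
        (𝕜 := ℂ) (f := fun z => g q.1 (q.2, p N (c.τ q.2) + P S z))
        (f' := fun z => (Dz (g q.1) (q.2, p N (c.τ q.2) + P S z)).comp (P S))
        (C := C * (‖c.τ q.2‖ ^ N + ‖y‖ ^ n)) (x := 0) (y := y)
        (fun z hz => HasFDerivAt.hasFDerivWithinAt (HasFDerivAt.comp (g := fun y => g q.1 (q.2, y))
          (f := fun z => p N (c.τ q.2) + P S z) z (hq z (hsub z hz)).2.hasFDerivAt
          ((P S).hasFDerivAt.const_add _)))
        (fun z hz => by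
          have h8 := (hq z (hsub z hz)).1
          rw [Finset.sum_apply] at h8
          refine (norm_comp_P _ S).trans ((le_abs_self _).trans (h8.trans ?_))
          rw [Real.norm_of_nonneg (by positivity)]
          have := mem_closedBall_zero_iff.1 hz
          gcongr)
        (mem_closedBall_self (norm_nonneg _)) (mem_closedBall_zero_iff.2 le_rfl)
      rw [Real.norm_of_nonneg (by positivity)] at hq' ⊢
      simp only [map_zero, add_zero, sub_zero] at h7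
      have h8 := norm_le_norm_add_norm_sub' (g q.1 (q.2, p N (c.τ q.2) + P S y))
        (g q.1 (q.2, p N (c.τ q.2)))
      have h9 : ‖c.τ q.2‖ ^ N * ‖y‖ ≤ ‖c.τ q.2‖ ^ N := mul_le_of_le_one_right (by positivity) hy2
      have h10 : 0 ≤ ‖y‖ ^ n * ‖y‖ := by positivity
      rw [pow_succ]
      nlinarith
  intro g hg
  have hδ : (fun q : κ × ℂ => p M (c.τ q.2) - p N (c.τ q.2)) =O[c.F] fun q => ‖c.τ q.2‖ ^ 1 :=
    (hp.one M).sub (hp.one N)
  have h1 := (key N g hg).comp_tendsto (tendsto_id.prodMk (hδ.trans_tendsto (tpow c 0)))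
  refine (h1.congr_left fun q => ?_).trans ((isBigO_refl _ _).add ?_)
  · simp [hS]
  · simpa using hδ.norm_left.pow N

end Coord

end Crest.Agent.N250.Hn
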